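import Mathlib
import Vale.Agent.P136.Defs

/-!
# P136: vocabulary for global uniqueness of the Lamé moduli

Complex displacements, the Lamé operator and its reduction to a Laplacian system
(`u = μ^(-1/2) w + μ⁻¹ ∇g - g ∇μ⁻¹`), and the transport system of the leading amplitudes of
exponential solutions along a null vector.
-/

open MeasureTheory Filter
open scoped Topology ContDiff

namespace Vale.Agent.P136.Full

noncomputable section

/-- Complex three-vectors. -/
abbrev C3 : Type := Fin 3 → ℂ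

/-- Amplitudes: a vector and a scalar component. -/
abbrev Amp : Type := C3 × ℂ

/-- The bilinear dot product. -/
def bdot (a b : C3) : ℂ := ∑ i, a i * b i

/-- The bilinear pairing of amplitudes. -/
def dot4 (a b : Amp) : ℂ := bdot a.1 b.1 + a.2 * b.2

/-- A nonzero vector with `θ · θ = 0`. -/
def IsNull (θ : C3) : Prop := bdot θ θ = 0 ∧ θ ≠ 0

variable {E : Type*} [NormedAddCommGroup E] [NormedSpace ℂ E]

/-- Partial derivative along the `i`-th coordinate. -/
def pd (i : Fin 3) (f : Space → E) (x : Space) : E := fderiv ℝ f x (Pi.single i 1)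

/-- The derivative `θ · ∇`. -/
def Dth (θ : C3) (f : Space → E) (x : Space) : E := ∑ i, θ i • pd i f x

/-- The gradient of a complex function. -/
def grad (f : Space → ℂ) (x : Space) : C3 := fun i => pd i f x

/-- The divergence of a complex field. -/
def divv (u : Space → C3) (x : Space) : ℂ := ∑ i, pd i (fun y => u y i) x

/-- The Laplacian. -/
def lap (f : Space → E) (x : Space) : E := ∑ i, pd i (pd i f) x

/-- Second partial derivatives. -/
def hess (f : Space → ℂ) (x : Space) (i j : Fin 3) : ℂ := pd j (pd i f) x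

/-- The Hessian applied to a vector. -/
def hessVec (f : Space → ℂ) (x : Space) (v : C3) : C3 := fun i => ∑ j, hess f x i j * v j

/-- The phase `θ · x`. -/
def phase (θ : C3) (x : Space) : ℂ := ∑ i, θ i * (x i : ℂ)

/-- The exponential `exp (τ θ · x)`. -/
def expo (θ : C3) (τ : ℝ) (x : Space) : ℂ := Complex.exp ((τ : ℂ) * phase θ x)

/-- Moduli defined on the whole space, smooth and everywhere admissible. -/
structure Moduli where
  /-- The first Lamé modulus. -/
  lam : Space → ℝ
  /-- The shear modulus. -/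
  mu : Space → ℝ
  lam_smooth : ContDiff ℝ ∞ lam
  mu_smooth : ContDiff ℝ ∞ mu
  mu_pos : ∀ x, 0 < mu x
  bulk_pos : ∀ x, 0 < 3 * lam x + 2 * mu x

namespace Moduli

variable (M : Moduli)

/-- `λ + μ`. -/
def A (x : Space) : ℝ := M.lam x + M.mu x

/-- `1 / μ`. -/
def m (x : Space) : ℝ := (M.mu x)⁻¹

/-- `μ^(-1/2)`. -/
def n (x : Space) : ℝ := (Real.sqrt (M.mu x))⁻¹

/-- `√μ`. -/
def sq (x : Space) : ℝ := Real.sqrt (M.mu x)

/-- The coupling `(λ + μ) √μ / (λ + 2 μ)`. -/
def c (x : Space) : ℝ := M.A x * M.sq x / (M.A x + M.mu x)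

/-- `λ` as a complex function. -/
def lamC (x : Space) : ℂ := (M.lam x : ℂ)

/-- `μ` as a complex function. -/
def muC (x : Space) : ℂ := (M.mu x : ℂ)

/-- `λ + μ` as a complex function. -/
def AC (x : Space) : ℂ := (M.A x : ℂ)

/-- `1 / μ` as a complex function. -/
def mC (x : Space) : ℂ := (M.m x : ℂ)

/-- `μ^(-1/2)` as a complex function. -/
def nC (x : Space) : ℂ := (M.n x : ℂ)

/-- `√μ` as a complex function. -/
def sqC (x : Space) : ℂ := (M.sq x : ℂ)

/-- The coupling as a complex function. -/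
def cC (x : Space) : ℂ := (M.c x : ℂ)

/-- The Lamé operator `div (λ (div u) I + μ (∇u + ∇uᵀ))`. -/
def lame (u : Space → C3) (x : Space) : C3 := fun i =>
  M.muC x * lap (fun y => u y i) x + M.AC x * pd i (divv u) x + divv u x * pd i M.lamC x +
    ∑ j, (pd j (fun y => u y i) x + pd i (fun y => u y j) x) * pd j M.muC x

/-- The displacement of an amplitude: `μ^(-1/2) w + μ⁻¹ ∇g - g ∇μ⁻¹`. -/
def disp (U : Space → Amp) (x : Space) : C3 :=
  M.nC x • (U x).1 + M.mC x • grad (fun y => (U y).2) x - (U x).2 • grad M.mC x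

/-- The reduced system. -/
def reduced (U : Space → Amp) (x : Space) : Amp :=
  (lap (fun y => (U y).1) x - (2 * M.sqC x) • hessVec M.mC x (grad (fun y => (U y).2) x) -
      (divv (fun y => (U y).1) x * M.mC x) • grad M.muC x +
      (M.sqC x)⁻¹ • ((M.muC x * lap M.nC x + bdot (grad M.nC x) (grad M.muC x)) • (U x).1 +
        (2 * M.muC x) • hessVec M.nC x (U x).1 +
        (2 * bdot (grad M.nC x) (U x).1) • grad M.muC x) -
      (2 * (U x).2 / M.sqC x) • (M.muC x • grad (lap M.mC) x + hessVec M.mC x (grad M.muC x)),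
    lap (fun y => (U y).2) x + M.cC x * divv (fun y => (U y).1) x +
      (M.muC x / (M.AC x + M.muC x)) *
        ((M.AC x - 2 * M.muC x) * bdot (grad M.nC x) (U x).1 +
          (M.muC x - M.AC x) * lap M.mC x * (U x).2))

/-- The first order part in `τ` of the reduced system conjugated by `exp (τ θ · x)`. -/
def transport (θ : C3) (Y : Space → Amp) (x : Space) : Amp :=
  ((2 : ℂ) • Dth θ (fun y => (Y y).1) x - (2 * M.sqC x * (Y x).2) • hessVec M.mC x θ -
      (bdot θ (Y x).1 * M.mC x) • grad M.muC x,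
    2 * Dth θ (fun y => (Y y).2) x + M.cC x * bdot θ (Y x).1)

/-- The reduced system conjugated by `exp (τ θ · x)`. -/
def conjReduced (θ : C3) (τ : ℝ) (U : Space → Amp) (x : Space) : Amp :=
  M.reduced U x + (τ : ℂ) • M.transport θ U x

/-- The displacement map conjugated by `exp (τ θ · x)`. -/
def conjDisp (θ : C3) (τ : ℝ) (U : Space → Amp) (x : Space) : C3 :=
  M.disp U x + ((τ : ℂ) * M.mC x * (U x).2) • θ

/-- The right hand side of the Lamé system of the displacement of an amplitude. -/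
def source (F : Space → Amp) (x : Space) : C3 :=
  M.sqC x • (F x).1 + ((M.AC x + M.muC x) * M.mC x) • grad (fun y => (F y).2) x +
    (F x).2 • grad (fun y => M.AC y * M.mC y) x

/-- The matrix of the leading amplitude system `Dθ Y = N Y`. -/
def amat (θ : C3) (x : Space) (Y : Amp) : Amp :=
  (-(Dth θ M.muC x / (2 * M.muC x)) • Y.1 -
      ((M.AC x * Y.2 + bdot (grad M.muC x) Y.1) / (2 * M.muC x)) • θ,
    (M.muC x ^ 2 * bdot Y.1 (hessVec M.mC x θ) -
        (Dth θ M.AC x - M.AC x * Dth θ M.muC x / M.muC x) * Y.2) / (M.AC x + M.muC x))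

/-- The transpose of `amat`. -/
def amatT (θ : C3) (x : Space) (η : Amp) : Amp :=
  (-(Dth θ M.muC x / (2 * M.muC x)) • η.1 - (bdot θ η.1 / (2 * M.muC x)) • grad M.muC x +
      (M.muC x ^ 2 * η.2 / (M.AC x + M.muC x)) • hessVec M.mC x θ,
    -(M.AC x * bdot θ η.1 / (2 * M.muC x)) -
      (Dth θ M.AC x - M.AC x * Dth θ M.muC x / M.muC x) * η.2 / (M.AC x + M.muC x))

/-- The leading amplitude `(W, Π)` of a pair of coefficients of an exponential solution. -/
def lead (θ : C3) (Y₀ Y₁ : Space → Amp) (x : Space) : Amp :=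
  (M.nC x • (Y₀ x).1 + (M.mC x * (Y₁ x).2) • θ,
    bdot θ (M.disp Y₁ x) + divv (fun y => M.nC y • (Y₀ y).1 + (M.mC y * (Y₁ y).2) • θ) x)

/-- The complex bilinear energy of two displacements. -/
def cform (Ω : Set Space) (u v : Space → C3) : ℂ :=
  ∫ x in Ω, (M.lamC x * (divv u x * divv v x) + 2 * M.muC x * ∑ i, ∑ j,
    ((pd j (fun y => u y i) x + pd i (fun y => u y j) x) / 2) *
      ((pd j (fun y => v y i) x + pd i (fun y => v y j) x) / 2))

end Moduli

/-- Squared length of the gradient of a field. -/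
def gradSqr (u : Space → C3) (x : Space) : ℝ :=
  ∑ i, ∑ j, ‖pd j (fun y => u y i) x‖ ^ 2

/-- A sequence of fields converging in energy to a weak solution of the Lamé system in `Ω`. -/
structure ApproxSol (Ω : Set Space) (M : Moduli) (u : ℕ → Space → C3) : Prop where
  smooth : ∀ k, ContDiff ℝ 1 (u k)
  cauchy : Tendsto (fun p : ℕ × ℕ => ∫ x in Ω, gradSqr (u p.1 - u p.2) x) atTop (𝓝 0)
  ortho : ∀ φ : Space → C3, ContDiff ℝ 1 φ → (∀ x ∈ frontier Ω, φ x = 0) →
    Tendsto (fun k => M.cform Ω (u k) φ) atTop (𝓝 0)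

/-- A bounded open set with smooth boundary. -/
structure SmoothDomain (Ω : Set Space) : Prop where
  isOpen : IsOpen Ω
  bounded : Bornology.IsBounded Ω
  boundary : ∀ z ∈ frontier Ω, ∃ U : Set Space, IsOpen U ∧ z ∈ U ∧ ∃ ρ : Space → ℝ,
    ContDiff ℝ ∞ ρ ∧ fderiv ℝ ρ z ≠ 0 ∧ Ω ∩ U = {x ∈ U | ρ x < 0}

/-- The two pairs of moduli agree to first order on the boundary of `Ω`. -/
def FirstOrderEq (Ω : Set Space) (M₁ M₂ : Moduli) : Prop :=
  ∀ x ∈ frontier Ω, M₁.lam x = M₂.lam x ∧ M₁.mu x = M₂.mu x ∧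
    fderiv ℝ M₁.lam x = fderiv ℝ M₂.lam x ∧ fderiv ℝ M₁.mu x = fderiv ℝ M₂.mu x

/-- The null conic. -/
def conic (z : ℂ) : C3 := ![1 - z ^ 2, Complex.I * (1 + z ^ 2), 2 * z]

/-- A frame of the vectors orthogonal to `conic z`: `conic z = eps 0 z - z • eps 1 z`. -/
def eps (a : Fin 2) (z : ℂ) : C3 :=
  if a = 0 then ![1, Complex.I, z] else ![z, -(Complex.I * z), -1]

/-- Squared size of an amplitude function. -/
def ampSqr (Y : Amp) : ℝ := (∑ i, ‖Y.1 i‖ ^ 2) + ‖Y.2‖ ^ 2

/-- The squared norm controlling an amplitude, its gradient and the Hessian of its scalar part. -/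
def sobSqr (U : Space → Amp) (x : Space) : ℝ :=
  ampSqr (U x) + (∑ i, ampSqr (pd i U x)) + ∑ i, ∑ j, ‖hess (fun y => (U y).2) x i j‖ ^ 2

end

end Vale.Agent.P136.Full
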