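import Mathlib
import Vale.Agent.P136.Full.Defs

/-!
# P136: the statements proved by the modules of the uniqueness proof

`theta` families are null vectors depending smoothly on a complex parameter.
-/

open MeasureTheory Filter Set Metric
open scoped Topology ContDiff

namespace Vale.Agent.P136.Full

noncomputable section

/-- A: the Carleman estimate. -/
def CarlemanStmt : Prop :=
  ∀ (θ : C3), IsNull θ → ∀ (R : ℝ) (b : Space → Fin 3 → Amp →L[ℂ] Amp) (b₀ : Space → Amp →L[ℂ] Amp)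
    (bτ : Space → Amp →L[ℂ] Amp),
    Continuous b → Continuous b₀ → Continuous bτ →
      ∃ C τ₀ : ℝ, 0 < C ∧ 1 ≤ τ₀ ∧ ∀ τ : ℝ, τ₀ ≤ τ → ∀ φ : Space → Amp,
        ContDiff ℝ ∞ φ → (∀ x, R < ‖x‖ → φ x = 0) →
          (τ ^ 2 * ∫ x, ampSqr (φ x)) + (∫ x, ∑ i, ampSqr (pd i φ x)) ≤
            C * ∫ x, ampSqr (lap φ x - (2 * (τ : ℂ)) • Dth θ φ x + (∑ i, b x i (pd i φ x)) +
              b₀ x (φ x) + (τ : ℂ) • bτ x (φ x))

/-- B: approximate solutions of the conjugated reduced system, with polynomial bounds. The right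
hand side is `(∑ i, ∂ᵢ Gᵢ + F.1, F.2)`. -/
def SolveStmt : Prop :=
  ∀ (M : Moduli) (θ : C3), IsNull θ → ∀ R : ℝ, ∃ C τ₀ : ℝ, ∃ p : ℕ, 0 < C ∧ 1 ≤ τ₀ ∧
    ∀ τ : ℝ, τ₀ ≤ τ → ∀ (G : Fin 3 → Space → C3) (F : Space → Amp),
      (∀ i, ContDiff ℝ ∞ (G i) ∧ HasCompactSupport (G i)) → ContDiff ℝ ∞ F → HasCompactSupport F →
      ∃ w : ℕ → Space → Amp, (∀ k, ContDiff ℝ ∞ (w k)) ∧
        (∀ k, ∫ x in ball (0 : Space) R, sobSqr (w k) x ≤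
          C * τ ^ p * ((∫ x, ampSqr (F x)) + ∑ i, ∫ x, ∑ j, ‖G i x j‖ ^ 2)) ∧
        Tendsto (fun q : ℕ × ℕ => ∫ x in ball (0 : Space) R, sobSqr (w q.1 - w q.2) x) atTop (𝓝 0) ∧
        Tendsto (fun k => ∫ x in ball (0 : Space) R, ampSqr (M.conjReduced θ τ (w k) x -
          ((∑ i, pd i (G i) x) + (F x).1, (F x).2))) atTop (𝓝 0)

/-- D: smooth solutions of transport systems along a family of null vectors. -/
def TransportStmt : Prop :=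
  ∀ (θ : ℂ → C3), ContDiff ℝ ∞ θ → (∀ z, IsNull (θ z)) →
  ∀ (N : ℂ × Space → Amp →L[ℂ] Amp) (f : ℂ × Space → Amp), ContDiff ℝ ∞ N → ContDiff ℝ ∞ f →
  ∀ (z₀ : ℂ) (R : ℝ),
    (∃ ρ > 0, ∃ Y : ℂ × Space → Amp, ContDiff ℝ ∞ Y ∧ ∀ z ∈ ball z₀ ρ, ∀ x ∈ ball (0 : Space) R,
      Dth (θ z) (fun y => Y (z, y)) x = N (z, x) (Y (z, x)) + f (z, x)) ∧
    ∀ x₀ ∈ ball (0 : Space) R, ∀ e : Amp, ∃ ρ > 0, ∃ Y : ℂ × Space → Amp, ContDiff ℝ ∞ Y ∧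
      Y (z₀, x₀) = e ∧ ∀ z ∈ ball z₀ ρ, ∀ x ∈ ball (0 : Space) R,
        Dth (θ z) (fun y => Y (z, y)) x = N (z, x) (Y (z, x))

/-- E: equal maps give the bilinear identity for approximate solutions. -/
def FormStmt : Prop :=
  ∀ (Ω : Set Space) (M₁ M₂ : Moduli), IsOpen Ω → Bornology.IsBounded Ω →
    SameMap Ω M₁.lam M₁.mu M₂.lam M₂.mu → ∀ u v : ℕ → Space → C3,
      ApproxSol Ω M₂ u → ApproxSol Ω M₁ v →
        Tendsto (fun k => M₁.cform Ω (u k) (v k) - M₂.cform Ω (u k) (v k)) atTop (𝓝 0)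

/-- E': approximate solutions of the conjugated reduced system with right hand side `(f, 0)` give
fields converging in energy, weakly solving the Lamé system with right hand side `exp (τ θ · x) √μ f`.
-/
def DispSolStmt : Prop :=
  ∀ (Ω : Set Space) (M : Moduli) (θ : C3) (τ R : ℝ) (U : ℕ → Space → Amp) (f : Space → C3),
    IsOpen Ω → IsNull θ → closure Ω ⊆ ball (0 : Space) R → (∀ k, ContDiff ℝ ∞ (U k)) →
    Continuous f →
    Tendsto (fun q : ℕ × ℕ => ∫ x in ball (0 : Space) R, sobSqr (U q.1 - U q.2) x) atTop (𝓝 0) →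
    Tendsto (fun k => ∫ x in Ω, ampSqr (M.conjReduced θ τ (U k) x - (f x, 0))) atTop (𝓝 0) →
      (∀ k, ContDiff ℝ 1 fun x => expo θ τ x • M.conjDisp θ τ (U k) x) ∧
      Tendsto (fun q : ℕ × ℕ => ∫ x in Ω, gradSqr ((fun x => expo θ τ x • M.conjDisp θ τ (U q.1) x) -
        fun x => expo θ τ x • M.conjDisp θ τ (U q.2) x) x) atTop (𝓝 0) ∧
      ∀ φ : Space → C3, ContDiff ℝ 1 φ → (∀ x ∈ frontier Ω, φ x = 0) →
        Tendsto (fun k => M.cform Ω (fun x => expo θ τ x • M.conjDisp θ τ (U k) x) φ) atTop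
          (𝓝 (-∫ x in Ω, expo θ τ x * M.sqC x * bdot (f x) (φ x)))

/-- F: boundary determination to first order. -/
def BoundaryStmt : Prop :=
  ∀ (Ω : Set Space) (M₁ M₂ : Moduli), SmoothDomain Ω →
    SameMap Ω M₁.lam M₁.mu M₂.lam M₂.mu → FirstOrderEq Ω M₁ M₂

/-- Leading amplitudes which come from exponential solutions. -/
def Realised (M : Moduli) (θ : C3) (R : ℝ) (Y : Space → Amp) : Prop :=
  ∃ Y₀ Y₁ : Space → Amp, ContDiff ℝ ∞ Y₀ ∧ ContDiff ℝ ∞ Y₁ ∧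
    (∀ x ∈ ball (0 : Space) R, bdot θ (Y₀ x).1 = 0 ∧ (Y₀ x).2 = 0 ∧ M.transport θ Y₀ x = 0 ∧
      M.reduced Y₀ x + M.transport θ Y₁ x = 0) ∧ Y = M.lead θ Y₀ Y₁

/-- Amplitudes for the second pair that are orthogonal to the adjoint amplitudes of the first. -/
structure OrthY (Ω : Set Space) (M₁ M₂ : Moduli) (θ : C3) (R : ℝ) (Y : Space → Amp) : Prop where
  smooth : ContDiff ℝ ∞ Y
  perp : ∀ x ∈ ball (0 : Space) R, bdot θ (Y x).1 = 0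
  eqn : ∀ x ∈ ball (0 : Space) R, Dth θ Y x = M₂.amat θ x (Y x)
  orth : ∀ η : Space → Amp, ContDiff ℝ ∞ η →
    (∀ x ∈ ball (0 : Space) R, Dth θ η x + M₁.amatT θ x (η x) = 0) →
      ∫ x in Ω, dot4 (η x) (M₂.amat θ x (Y x) - M₁.amat θ x (Y x)) = 0

/-- G: exponential solutions give orthogonality of the realised amplitudes. -/
def OrthStmt : Prop :=
  ∀ (Ω : Set Space) (M₁ M₂ : Moduli) (R : ℝ), IsOpen Ω → closure Ω ⊆ ball (0 : Space) R →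
    FirstOrderEq Ω M₁ M₂ → SameMap Ω M₁.lam M₁.mu M₂.lam M₂.mu →
      ∀ (θ : C3), IsNull θ → ∀ Y, Realised M₂ θ R Y → OrthY Ω M₁ M₂ θ R Y

/-- The gauge between the two amplitude systems, as a bilinear form on smooth fields; formally
`G z ξ X = ∫ ξ · (Gauge X)` over `Ω`, where `Gauge` maps solutions of the second system to solutions
of the first system with the same boundary values. -/
structure Gauge (Ω : Set Space) (M₁ M₂ : Moduli) where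
  /-- The bilinear form. -/
  G : ℂ → (Space → Amp) → (Space → Amp) → ℂ
  add_left : ∀ z ξ ξ' X, ContDiff ℝ ∞ ξ → ContDiff ℝ ∞ ξ' → ContDiff ℝ ∞ X →
    (∀ x, bdot (conic z) (X x).1 = 0) → G z (ξ + ξ') X = G z ξ X + G z ξ' X
  add_right : ∀ z ξ X X', ContDiff ℝ ∞ ξ → ContDiff ℝ ∞ X → ContDiff ℝ ∞ X' →
    (∀ x, bdot (conic z) (X x).1 = 0) → (∀ x, bdot (conic z) (X' x).1 = 0) →
      G z ξ (X + X') = G z ξ X + G z ξ X'
  move : ∀ z (f : Space → ℂ) ξ X, ContDiff ℝ ∞ f → ContDiff ℝ ∞ ξ → ContDiff ℝ ∞ X →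
    (∀ x, bdot (conic z) (X x).1 = 0) →
      G z (fun x => f x • ξ x) X = G z ξ (fun x => f x • X x)
  smul_left : ∀ z (a : ℂ) ξ X, ContDiff ℝ ∞ ξ → ContDiff ℝ ∞ X →
    (∀ x, bdot (conic z) (X x).1 = 0) → G z (a • ξ) X = a * G z ξ X
  theta_left : ∀ z (f : Space → ℂ) X, ContDiff ℝ ∞ f → ContDiff ℝ ∞ X →
    (∀ x, bdot (conic z) (X x).1 = 0) → G z (fun x => (f x • conic z, 0)) X = 0
  green : ∀ z ξ X, ContDiff ℝ ∞ ξ → ContDiff ℝ ∞ X → (∀ x, bdot (conic z) (X x).1 = 0) →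
    G z (fun x => Dth (conic z) ξ x + M₁.amatT (conic z) x (ξ x)) X +
        G z ξ (fun x => Dth (conic z) X x - M₂.amat (conic z) x (X x)) =
      ∫ x in Ω, Dth (conic z) (fun y => dot4 (ξ y) (X y)) x
  analytic_vec : ∀ ξ, ContDiff ℝ ∞ ξ → ∀ a : Fin 2,
    Differentiable ℂ fun z => G z ξ fun _ => (eps a z, 0)
  analytic_sca : ∀ ξ, ContDiff ℝ ∞ ξ → Differentiable ℂ fun z => G z ξ fun _ => (0, 1)
  growth_vec : ∀ ξ, ContDiff ℝ ∞ ξ → ∀ a : Fin 2,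
    ∃ C : ℝ, ∀ z, ‖G z ξ fun _ => (eps a z, 0)‖ ≤ C * (1 + ‖z‖)
  growth_sca : ∀ ξ, ContDiff ℝ ∞ ξ → ∃ C : ℝ, ∀ z, ‖G z ξ fun _ => (0, 1)‖ ≤ C

/-- H: orthogonality gives the gauge. -/
def GaugeStmt : Prop :=
  ∀ (Ω : Set Space) (M₁ M₂ : Moduli) (R : ℝ), IsOpen Ω → closure Ω ⊆ ball (0 : Space) R →
    (∀ θ : C3, IsNull θ → ∀ Y, Realised M₂ θ R Y → OrthY Ω M₁ M₂ θ R Y) →
      Nonempty (Gauge Ω M₁ M₂)

/-- I: the gauge gives uniqueness. -/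
def RigidityStmt : Prop :=
  ∀ (Ω : Set Space) (M₁ M₂ : Moduli), SmoothDomain Ω → IsConnected Ω → FirstOrderEq Ω M₁ M₂ →
    Gauge Ω M₁ M₂ → ∀ x ∈ closure Ω, M₁.lam x = M₂.lam x ∧ M₁.mu x = M₂.mu x

/-- The answer: global uniqueness of the Lamé moduli from the displacement-to-traction map. -/
def Uniqueness : Prop :=
  ∀ (Ω : Set Space), SmoothDomain Ω → IsConnected Ω → ∀ lam₁ mu₁ lam₂ mu₂ : Space → ℝ,
    ContDiff ℝ ∞ lam₁ → ContDiff ℝ ∞ mu₁ → ContDiff ℝ ∞ lam₂ → ContDiff ℝ ∞ mu₂ →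
    (∀ x ∈ closure Ω, 0 < mu₁ x ∧ 0 < 3 * lam₁ x + 2 * mu₁ x) →
    (∀ x ∈ closure Ω, 0 < mu₂ x ∧ 0 < 3 * lam₂ x + 2 * mu₂ x) →
    SameMap Ω lam₁ mu₁ lam₂ mu₂ → ∀ x ∈ closure Ω, lam₁ x = lam₂ x ∧ mu₁ x = mu₂ x

end

end Vale.Agent.P136.Full
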