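import Mathlib
import Vale.Agent.P136.Full.Spec

/-!
# P136: the Carleman estimate

For `θ = a + i b` null, the conjugate of `Δ - 2 τ θ·∇` by `exp (K (a·x)² / 2)` is a symmetric plus a
skew operator whose commutator is positive of size `K τ²`, so large `K` absorbs all lower order terms.
-/

open MeasureTheory Set
open scoped ContDiff RealInnerProductSpace

namespace Vale.Agent.P136.Full.Carl

noncomputable section

variable {F : Type*} [NormedAddCommGroup F] [NormedSpace ℝ F]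

/-- Derivative in the direction `v`. -/
def d (v : Space) (f : Space → F) (x : Space) : F := fderiv ℝ f x v

/-- The coordinate vectors. -/
def e (j : Fin 3) : Space := Pi.single j 1

theorem contDiff_d {f : Space → F} (hf : ContDiff ℝ ∞ f) (v : Space) : ContDiff ℝ ∞ (d v f) :=
  (hf.fderiv_right (m := ∞) (by simp)).clm_apply contDiff_const

theorem diff {f : Space → F} (hf : ContDiff ℝ ∞ f) : Differentiable ℝ f :=
  hf.differentiable (by simp)

theorem d_comm {f : Space → F} (hf : ContDiff ℝ ∞ f) (v w : Space) (x : Space) :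
    d v (d w f) x = d w (d v f) x := by
  have hd : Differentiable ℝ (fderiv ℝ f) := diff (hf.fderiv_right (m := ∞) (by simp))
  have e1 : ∀ p q : Space, d p (d q f) x = fderiv ℝ (fderiv ℝ f) x p q := by
    intro p q
    have h := fderiv_clm_apply (hd x) (differentiableAt_const q)
    show fderiv ℝ (fun y => fderiv ℝ f y q) x p = _
    rw [h]
    simp
  rw [e1, e1]
  exact hf.contDiffAt.isSymmSndFDerivAt (by simpa using WithTop.coe_le_coe.2 (le_top : (2 : ℕ∞) ≤ ⊤)) v w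

theorem d_add {f g : Space → F} (hf : Differentiable ℝ f) (hg : Differentiable ℝ g) (v x : Space) :
    d v (fun y => f y + g y) x = d v f x + d v g x := by
  simp [d, fderiv_fun_add (hf x) (hg x)]

theorem d_sub {f g : Space → F} (hf : Differentiable ℝ f) (hg : Differentiable ℝ g) (v x : Space) :
    d v (fun y => f y - g y) x = d v f x - d v g x := by
  simp [d, fderiv_fun_sub (hf x) (hg x)]

theorem d_smul {p : Space → ℝ} {f : Space → F} (hp : Differentiable ℝ p) (hf : Differentiable ℝ f)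
    (v x : Space) : d v (fun y => p y • f y) x = p x • d v f x + d v p x • f x := by
  simp [d, fderiv_fun_smul (hp x) (hf x)]

theorem d_mul {p q : Space → ℝ} (hp : Differentiable ℝ p) (hq : Differentiable ℝ q)
    (v x : Space) : d v (fun y => p y * q y) x = p x * d v q x + d v p x * q x := by
  simp [d, fderiv_fun_mul (hp x) (hq x)]; ring

theorem d_cmul (c : ℂ) {f : Space → ℂ} (hf : Differentiable ℝ f) (v x : Space) :
    d v (fun y => c * f y) x = c * d v f x := by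
  simp [d, fderiv_const_mul (hf x) c]

theorem d_inner {f g : Space → ℂ} (hf : Differentiable ℝ f) (hg : Differentiable ℝ g) (v x : Space) :
    d v (fun y => ⟪f y, g y⟫) x = ⟪f x, d v g x⟫ + ⟪d v f x, g x⟫ :=
  fderiv_inner_apply ℝ (hf x) (hg x) v

theorem d_rmul {p : Space → ℝ} (hp : Differentiable ℝ p) (c : ℝ) (v x : Space) :
    d v (fun y => c * p y) x = c * d v p x := by
  simp [d, fderiv_const_mul (hp x)]

theorem d_neg {p : Space → ℝ} (v x : Space) : d v (fun y => -p y) x = -d v p x := by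
  simp [d, fderiv_fun_neg]

theorem d_sub_const {p : Space → ℝ} (c : ℝ) (v x : Space) :
    d v (fun y => p y - c) x = d v p x := by
  simp [d, fderiv_sub_const]

theorem d_fsum {p : Fin 3 → Space → ℝ} (hp : ∀ j, Differentiable ℝ (p j)) (v x : Space) :
    d v (fun y => ∑ j, p j y) x = ∑ j, d v (p j) x := by
  simp [d, fderiv_fun_sum fun j _ => hp j x]

theorem d_sum (a : Space) (f : Space → F) (x : Space) : d a f x = ∑ j, a j • d (e j) f x := by
  simp only [d, e, ← map_smul, ← map_sum]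
  congr 1
  funext i
  simp [Fintype.sum_apply, Pi.single_apply]

theorem d_zero_of_notMem {f : Space → F} {S : Set Space} (hS : IsClosed S)
    (h : ∀ x ∉ S, f x = 0) (v : Space) : ∀ x ∉ S, d v f x = 0 := by
  intro x hx
  have : f =ᶠ[nhds x] fun _ => (0 : F) := by
    filter_upwards [hS.isOpen_compl.mem_nhds hx] with y hy using h y hy
  simp [d, this.fderiv_eq]

theorem intg {f : Space → ℝ} {S : Set Space} (hS : IsCompact S) (hf : Continuous f)
    (h : ∀ x ∉ S, f x = 0) : Integrable f :=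
  hf.integrable_of_hasCompactSupport (HasCompactSupport.intro hS h)

theorem integral_d {f : Space → ℝ} {S : Set Space} (hS : IsCompact S) (hf : ContDiff ℝ ∞ f)
    (h : ∀ x ∉ S, f x = 0) (v : Space) : ∫ x, d v f x = 0 := by
  have h1 : Integrable (fun x => d v f x) :=
    intg hS (contDiff_d hf v).continuous (d_zero_of_notMem hS.isClosed h v)
  have h2 : Integrable f := intg hS hf.continuous h
  have := integral_mul_fderiv_eq_neg_fderiv_mul_of_integrable (μ := (volume : Measure Space)) (v := v)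
    (f := fun _ : Space => (1 : ℝ)) (g := f) (by simp) (by simpa [d] using h1) (by simpa using h2)
    (fun x _ => differentiableAt_const _) (fun x _ => diff hf x)
  simpa [d] using this

/-- The linear phase. -/
def lin (a : Space) (x : Space) : ℝ := ∑ i, a i * x i

/-- Squared length. -/
def nsq (a : Space) : ℝ := ∑ i, a i ^ 2

theorem contDiff_lin (a : Space) : ContDiff ℝ ∞ (lin a) := by
  unfold lin; fun_prop

theorem d_lin (a v : Space) (x : Space) : d v (lin a) x = lin a v := by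
  unfold d lin
  rw [fderiv_fun_sum fun i _ => (by fun_prop)]
  rw [FunLike.coe_sum, Finset.sum_apply]
  refine Finset.sum_congr rfl fun i _ => ?_
  rw [fderiv_const_mul (by fun_prop)]
  show a i * (fderiv ℝ (fun y : Space => y i) x v) = _
  rw [(hasFDerivAt_apply (𝕜 := ℝ) i x).fderiv]
  rfl

theorem lin_self (a : Space) : lin a a = nsq a := by simp [lin, nsq, sq]

theorem lin_e (a : Space) (j : Fin 3) : lin a (e j) = a j := by
  simp [lin, e, Pi.single_apply]

theorem inner_self' (z : ℂ) : ⟪z, z⟫ = ‖z‖ ^ 2 := real_inner_self_eq_norm_sq z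

theorem norm_d_sq_le (b : Space) (f : Space → ℂ) (x : Space) :
    ‖d b f x‖ ^ 2 ≤ nsq b * ∑ j, ‖d (e j) f x‖ ^ 2 := by
  rw [d_sum b f x]
  refine le_trans (pow_le_pow_left₀ (norm_nonneg _) (norm_sum_le _ _) 2) ?_
  simp only [norm_smul, Real.norm_eq_abs, nsq]
  refine (Finset.sum_mul_sq_le_sq_mul_sq _ _ _).trans_eq ?_
  simp [sq_abs]

section scalar

variable {a b : Space} {ψ : Space → ℂ} (K τ : ℝ)

/-- The conjugated operator. -/
def Lop (a b : Space) (ψ : Space → ℂ) (x : Space) : ℂ :=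
  (∑ j, d (e j) (d (e j) ψ) x) - (2 * τ) • (Complex.I * d b ψ x) +
      (nsq a * ((K * lin a x + τ) ^ 2 - τ ^ 2)) • ψ x +
    (-(2 * (K * lin a x + τ)) • d a ψ x - (K * nsq a) • ψ x)

variable {S : Set Space}

theorem conjugated_estimate (hab : nsq b = nsq a) (horth : lin a b = 0) (ha : 0 < nsq a)
    (hψ : ContDiff ℝ ∞ ψ) (hS : IsCompact S) (h0 : ∀ x ∉ S, ψ x = 0) (hK : 1 ≤ K) (hKτ : K ≤ τ)
    (hl : ∀ x ∈ S, 2 * |K * lin a x| ≤ τ) :
    2 * K * nsq a ^ 2 * (τ ^ 2 * ∫ x, ‖ψ x‖ ^ 2) ≤ ∫ x, ‖Lop K τ a b ψ x‖ ^ 2 ∧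
      (∫ x, ∑ j, ‖d (e j) ψ x‖ ^ 2) ≤
        K⁻¹ * (∫ x, ‖Lop K τ a b ψ x‖ ^ 2) + (1 + 12 * nsq a) * (τ ^ 2 * ∫ x, ‖ψ x‖ ^ 2) := by
  set s : Space → ℝ := fun x => K * lin a x + τ with hs
  set α := nsq a with hα
  have hsS : ContDiff ℝ ∞ s := (contDiff_const.mul (contDiff_lin a)).add contDiff_const
  have hds : ∀ v x, d v s x = K * lin a v := by
    intro v x
    show fderiv ℝ (fun y => K * lin a y + τ) x v = _
    rw [fderiv_add_const, fderiv_const_mul (diff (contDiff_lin a) x)]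
    simp only [smul_apply, smul_eq_mul]
    rw [show fderiv ℝ (lin a) x v = lin a v from d_lin a v x]
  have c1 := fun v => contDiff_d hψ v
  have hIψ : ContDiff ℝ ∞ fun x => Complex.I * ψ x := contDiff_const.mul hψ
  have hIb : ContDiff ℝ ∞ fun x => Complex.I * d b ψ x := contDiff_const.mul (c1 b)
  have z0 : ∀ v, ∀ x ∉ S, d v ψ x = 0 := d_zero_of_notMem hS.isClosed h0
  -- the divergence terms
  let Fj : Fin 3 → Space → ℝ := fun j x =>
    -(2 * (s x * ⟪d (e j) ψ x, d a ψ x⟫)) - K * α * ⟪d (e j) ψ x, ψ x⟫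
  let Fa : Space → ℝ := fun x => s x * ((∑ j, ⟪d (e j) ψ x, d (e j) ψ x⟫) +
    2 * τ * ⟪Complex.I * d b ψ x, ψ x⟫ - α * ((s x * s x - τ ^ 2) * ⟪ψ x, ψ x⟫))
  let Fb : Space → ℝ := fun x => 2 * τ * (s x * ⟪Complex.I * ψ x, d a ψ x⟫)
  let Gj : Fin 3 → Space → ℝ := fun j x => ⟪d (e j) ψ x, ψ x⟫
  let Ga : Space → ℝ := fun x => s x * ⟪ψ x, ψ x⟫
  have sFj : ∀ j, ContDiff ℝ ∞ (Fj j) := fun j =>
    ((contDiff_const.mul (hsS.mul ((c1 _).inner ℝ (c1 a)))).neg).sub
      (contDiff_const.mul ((c1 _).inner ℝ hψ))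
  have sFa : ContDiff ℝ ∞ Fa :=
    hsS.mul (((ContDiff.sum fun j _ => (c1 _).inner ℝ (c1 _)).add
      (contDiff_const.mul (hIb.inner ℝ hψ))).sub
      (contDiff_const.mul (((hsS.mul hsS).sub contDiff_const).mul (hψ.inner ℝ hψ))))
  have sFb : ContDiff ℝ ∞ Fb := contDiff_const.mul (hsS.mul (hIψ.inner ℝ (c1 a)))
  have sGj : ∀ j, ContDiff ℝ ∞ (Gj j) := fun j => (c1 _).inner ℝ hψ
  have sGa : ContDiff ℝ ∞ Ga := hsS.mul (hψ.inner ℝ hψ)
  let D : Space → ℝ := fun x => (∑ j, d (e j) (Fj j) x) + d a Fa x + d b Fb x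
  let D' : Space → ℝ := fun x => (∑ j, d (e j) (Gj j) x) - d a Ga x
  have zFj : ∀ j, ∀ x ∉ S, Fj j x = 0 := fun j x hx => by simp [Fj, z0 _ x hx]
  have zFa : ∀ x ∉ S, Fa x = 0 := fun x hx => by simp [Fa, z0 _ x hx, h0 x hx]
  have zFb : ∀ x ∉ S, Fb x = 0 := fun x hx => by simp [Fb, z0 _ x hx]
  have zGj : ∀ j, ∀ x ∉ S, Gj j x = 0 := fun j x hx => by simp [Gj, h0 x hx]
  have zGa : ∀ x ∉ S, Ga x = 0 := fun x hx => by simp [Ga, h0 x hx]
  have iF : ∀ {f : Space → ℝ}, ContDiff ℝ ∞ f → (∀ x ∉ S, f x = 0) → ∀ v, Integrable (d v f) :=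
    fun hf hz v => intg hS (contDiff_d hf v).continuous (d_zero_of_notMem hS.isClosed hz v)
  have iD : Integrable D :=
    ((integrable_finsetSum _ fun j _ => iF (sFj j) (zFj j) (e j)).add (iF sFa zFa a)).add
      (iF sFb zFb b)
  have iD' : Integrable D' :=
    (integrable_finsetSum _ fun j _ => iF (sGj j) (zGj j) (e j)).sub (iF sGa zGa a)
  have i0 : Integrable (fun x => ∑ j, d (e j) (Fj j) x) :=
    integrable_finsetSum _ fun j _ => iF (sFj j) (zFj j) (e j)
  have hD : ∫ x, D x = 0 := by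
    show ∫ x, ((∑ j, d (e j) (Fj j) x) + d a Fa x + d b Fb x) = 0
    rw [integral_add (f := fun x => (∑ j, d (e j) (Fj j) x) + d a Fa x)
        (i0.add (iF sFa zFa a)) (iF sFb zFb b), integral_add i0 (iF sFa zFa a),
      integral_finsetSum _ fun j _ => iF (sFj j) (zFj j) (e j),
      integral_d hS sFa zFa, integral_d hS sFb zFb]
    simp [fun j => integral_d hS (sFj j) (zFj j) (e j)]
  have hD' : ∫ x, D' x = 0 := by
    show ∫ x, ((∑ j, d (e j) (Gj j) x) - d a Ga x) = 0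
    rw [integral_sub (f := fun x => ∑ j, d (e j) (Gj j) x)
        (integrable_finsetSum _ fun j _ => iF (sGj j) (zGj j) (e j)) (iF sGa zGa a),
      integral_finsetSum _ fun j _ => iF (sGj j) (zGj j) (e j), integral_d hS sGa zGa]
    simp [fun j => integral_d hS (sGj j) (zGj j) (e j)]
  -- the two pointwise identities
  have dd := diff hψ
  have dI := diff hIψ
  have dIb := diff hIb
  have d1 := fun v => diff (c1 v)
  have dsD := diff hsS
  have din : ∀ {f g : Space → ℂ}, Differentiable ℝ f → Differentiable ℝ g →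
      Differentiable ℝ fun x => ⟪f x, g x⟫ := fun hf hg => hf.inner ℝ hg
  have eFj : ∀ j x, d (e j) (Fj j) x =
      -(2 * (s x * (⟪d (e j) ψ x, d a (d (e j) ψ) x⟫ + ⟪d (e j) (d (e j) ψ) x, d a ψ x⟫) +
        K * a j * ⟪d (e j) ψ x, d a ψ x⟫)) -
      K * α * (⟪d (e j) ψ x, d (e j) ψ x⟫ + ⟪d (e j) (d (e j) ψ) x, ψ x⟫) := by
    intro j x
    have p1 : Differentiable ℝ fun y => s y * ⟪d (e j) ψ y, d a ψ y⟫ := dsD.mul (din (d1 _) (d1 a))
    show d (e j) (fun y => -(2 * (s y * ⟪d (e j) ψ y, d a ψ y⟫)) - K * α * ⟪d (e j) ψ y, ψ y⟫) x = _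
    rw [d_sub (f := fun y => -(2 * (s y * ⟪d (e j) ψ y, d a ψ y⟫))) (p1.const_mul 2).neg
      ((din (d1 _) dd).const_mul _)]
    have t1 : d (e j) (fun y => -(2 * (s y * ⟪d (e j) ψ y, d a ψ y⟫))) x =
        -(2 * d (e j) (fun y => s y * ⟪d (e j) ψ y, d a ψ y⟫) x) := by
      rw [d_neg, d_rmul p1]
    have t2 : d (e j) (fun y => K * α * ⟪d (e j) ψ y, ψ y⟫) x =
        K * α * d (e j) (fun y => ⟪d (e j) ψ y, ψ y⟫) x := by
      rw [d_rmul (din (d1 _) dd)]
    rw [t1, t2, d_mul dsD (din (d1 _) (d1 a)), d_inner (d1 _) (d1 a), d_inner (d1 _) dd, hds, lin_e,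
      d_comm hψ (e j) a]
  have eFb : ∀ x, d b Fb x =
      2 * τ * (s x * (⟪Complex.I * ψ x, d a (d b ψ) x⟫ + ⟪Complex.I * d b ψ x, d a ψ x⟫)) := by
    intro x
    show d b (fun y => 2 * τ * (s y * ⟪Complex.I * ψ y, d a ψ y⟫)) x = _
    have t : d b (fun y => 2 * τ * (s y * ⟪Complex.I * ψ y, d a ψ y⟫)) x =
        2 * τ * d b (fun y => s y * ⟪Complex.I * ψ y, d a ψ y⟫) x := by
      rw [d_rmul (p := fun y => s y * ⟪Complex.I * ψ y, d a ψ y⟫) (dsD.mul (din dI (d1 a)))]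
    rw [t, d_mul dsD (din dI (d1 a)), d_inner dI (d1 a), hds, horth, d_cmul _ dd, d_comm hψ b a]
    ring
  have eFa : ∀ x, d a Fa x =
      K * α * ((∑ j, ⟪d (e j) ψ x, d (e j) ψ x⟫) + 2 * τ * ⟪Complex.I * d b ψ x, ψ x⟫ -
        α * ((s x * s x - τ ^ 2) * ⟪ψ x, ψ x⟫)) +
      s x * ((∑ j, (⟪d (e j) ψ x, d a (d (e j) ψ) x⟫ + ⟪d a (d (e j) ψ) x, d (e j) ψ x⟫)) +
        2 * τ * (⟪Complex.I * d b ψ x, d a ψ x⟫ + ⟪Complex.I * d a (d b ψ) x, ψ x⟫) -
        α * ((s x * s x - τ ^ 2) * (⟪ψ x, d a ψ x⟫ + ⟪d a ψ x, ψ x⟫) +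
          2 * (K * α) * s x * ⟪ψ x, ψ x⟫)) := by
    intro x
    have q1 : Differentiable ℝ fun y => ∑ j, ⟪d (e j) ψ y, d (e j) ψ y⟫ :=
      Differentiable.fun_sum fun j _ => din (d1 _) (d1 _)
    have q2 : Differentiable ℝ fun y => 2 * τ * ⟪Complex.I * d b ψ y, ψ y⟫ :=
      (din dIb dd).const_mul _
    have q4 : Differentiable ℝ fun y => s y * s y - τ ^ 2 := (dsD.mul dsD).sub_const _
    have q3 : Differentiable ℝ fun y => α * ((s y * s y - τ ^ 2) * ⟪ψ y, ψ y⟫) :=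
      (q4.mul (din dd dd)).const_mul _
    show d a (fun y => s y * ((∑ j, ⟪d (e j) ψ y, d (e j) ψ y⟫) +
      2 * τ * ⟪Complex.I * d b ψ y, ψ y⟫ - α * ((s y * s y - τ ^ 2) * ⟪ψ y, ψ y⟫))) x = _
    rw [d_mul dsD ((q1.fun_add q2).fun_sub q3),
      d_sub (f := fun y => (∑ j, ⟪d (e j) ψ y, d (e j) ψ y⟫) + 2 * τ * ⟪Complex.I * d b ψ y, ψ y⟫)
        (q1.fun_add q2) q3, d_add q1 q2]
    have t1 : d a (fun y => ∑ j, ⟪d (e j) ψ y, d (e j) ψ y⟫) x =
        ∑ j, (⟪d (e j) ψ x, d a (d (e j) ψ) x⟫ + ⟪d a (d (e j) ψ) x, d (e j) ψ x⟫) := by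
      rw [← Finset.sum_congr rfl fun j _ => d_inner (d1 (e j)) (d1 (e j)) a x]
      exact d_fsum (fun j => din (d1 (e j)) (d1 (e j))) a x
    have t2 : d a (fun y => 2 * τ * ⟪Complex.I * d b ψ y, ψ y⟫) x =
        2 * τ * d a (fun y => ⟪Complex.I * d b ψ y, ψ y⟫) x := by
      rw [d_rmul (din dIb dd)]
    have t3 : d a (fun y => α * ((s y * s y - τ ^ 2) * ⟪ψ y, ψ y⟫)) x =
        α * d a (fun y => (s y * s y - τ ^ 2) * ⟪ψ y, ψ y⟫) x := by
      rw [d_rmul (p := fun y => (s y * s y - τ ^ 2) * ⟪ψ y, ψ y⟫) (q4.mul (din dd dd))]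
    have t4 : d a (fun y => s y * s y - τ ^ 2) x = 2 * (K * α) * s x := by
      rw [d_sub_const (τ ^ 2), d_mul dsD dsD, hds, lin_self]; ring
    rw [t1, t2, t3, d_inner dIb dd, d_mul q4 (din dd dd), t4, d_inner dd dd, d_cmul _ (d1 b), hds,
      lin_self]
    ring
  have hpa : ∀ x, ∑ j, a j * ⟪d (e j) ψ x, d a ψ x⟫ = ⟪d a ψ x, d a ψ x⟫ := by
    intro x
    calc ∑ j, a j * ⟪d (e j) ψ x, d a ψ x⟫ = ∑ j, ⟪a j • d (e j) ψ x, d a ψ x⟫ :=
          Finset.sum_congr rfl fun j _ => (real_inner_smul_left _ _ _).symm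
      _ = _ := by rw [← sum_inner, ← d_sum a ψ x]
  have key : ∀ x, ⟪(∑ j, d (e j) (d (e j) ψ) x) - (2 * τ) • (Complex.I * d b ψ x) +
        (α * (s x ^ 2 - τ ^ 2)) • ψ x, -(2 * s x) • d a ψ x - (K * α) • ψ x⟫ =
      D x + (2 * K * ⟪d a ψ x, d a ψ x⟫ + 2 * K * α ^ 2 * s x ^ 2 * ⟪ψ x, ψ x⟫) := by
    intro x
    show _ = (∑ j, d (e j) (Fj j) x) + d a Fa x + d b Fb x + _
    rw [← hpa x, eFa, eFb]
    simp only [eFj, Fin.sum_univ_three, Complex.inner, Complex.mul_re, Complex.mul_im, Complex.add_re,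
      Complex.add_im, Complex.sub_re, Complex.sub_im, Complex.smul_re, Complex.smul_im, Complex.I_re,
      Complex.I_im, Complex.conj_re, Complex.conj_im, Complex.neg_re, Complex.neg_im, smul_eq_mul]
    ring
  have key' : ∀ x, ∑ j, ‖d (e j) ψ x‖ ^ 2 = D' x - ⟪Lop K τ a b ψ x, ψ x⟫ -
      2 * τ * ⟪Complex.I * d b ψ x, ψ x⟫ + α * (s x ^ 2 - τ ^ 2) * ⟪ψ x, ψ x⟫ := by
    intro x
    show _ = (∑ j, d (e j) (fun y => ⟪d (e j) ψ y, ψ y⟫) x) - d a (fun y => s y * ⟪ψ y, ψ y⟫) x - _ -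
      _ + _
    rw [d_mul dsD (din dd dd), d_inner dd dd, hds, lin_self]
    simp only [d_inner (d1 _) dd]
    simp only [← inner_self', Lop, hs, ← hα, Fin.sum_univ_three, Complex.inner,
      Complex.mul_re, Complex.mul_im, Complex.add_re, Complex.add_im, Complex.sub_re, Complex.sub_im,
      Complex.smul_re, Complex.smul_im, Complex.I_re, Complex.I_im, Complex.conj_re, Complex.conj_im,
      Complex.neg_re, Complex.neg_im, smul_eq_mul]
    ring
  have hK0 : 0 < K := lt_of_lt_of_le one_pos hK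
  have hτ0 : 0 < τ := lt_of_lt_of_le hK0 hKτ
  have hlb : ∀ x ∈ S, τ / 2 ≤ s x ∧ s x ≤ 2 * τ := fun x hx => by
    have := abs_le.1 (show |K * lin a x| ≤ τ / 2 by linarith [hl x hx])
    constructor <;> simp only [hs] <;> linarith [this.1, this.2]
  have p1 : ∀ x, 4 * D x + 2 * K * α ^ 2 * (τ ^ 2 * ‖ψ x‖ ^ 2) ≤ ‖Lop K τ a b ψ x‖ ^ 2 := by
    intro x
    have h := key x
    set P := (∑ j, d (e j) (d (e j) ψ) x) - (2 * τ) • (Complex.I * d b ψ x) +
      (α * (s x ^ 2 - τ ^ 2)) • ψ x with hP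
    set Q := -(2 * s x) • d a ψ x - (K * α) • ψ x with hQ
    have e1 : Lop K τ a b ψ x = P + Q := rfl
    have e2 := norm_add_sq_real P Q
    have e3 := norm_sub_sq_real P Q
    rw [e1]
    have : K * α ^ 2 * τ ^ 2 * ‖ψ x‖ ^ 2 ≤ 4 * K * α ^ 2 * s x ^ 2 * ⟪ψ x, ψ x⟫ := by
      rw [inner_self']
      by_cases hx : x ∈ S
      · have h2 := pow_le_pow_left₀ (by positivity) (hlb x hx).1 2
        have h3 := mul_le_mul_of_nonneg_left h2 (by positivity : 0 ≤ 4 * K * α ^ 2 * ‖ψ x‖ ^ 2)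
        linarith
      · simp [h0 x hx]
    have h5 : 0 ≤ K * ⟪d a ψ x, d a ψ x⟫ := by rw [inner_self']; positivity
    nlinarith [sq_nonneg ‖P - Q‖]
  have p2 : ∀ x, ∑ j, ‖d (e j) ψ x‖ ^ 2 ≤
      2 * D' x + K⁻¹ * ‖Lop K τ a b ψ x‖ ^ 2 + (1 + 12 * α) * (τ ^ 2 * ‖ψ x‖ ^ 2) := by
    intro x
    have h := key' x
    have hb := norm_d_sq_le b ψ x
    rw [hab] at hb
    set N := ∑ j, ‖d (e j) ψ x‖ ^ 2 with hN
    have b1 : |⟪Lop K τ a b ψ x, ψ x⟫| ≤
        K⁻¹ * ‖Lop K τ a b ψ x‖ ^ 2 / 2 + τ ^ 2 * ‖ψ x‖ ^ 2 / 2 := by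
      refine (abs_real_inner_le_norm _ _).trans ?_
      set p := ‖Lop K τ a b ψ x‖
      set q := ‖ψ x‖
      have h1 : p * q ≤ K⁻¹ * p ^ 2 / 2 + K * q ^ 2 / 2 := by
        have : K⁻¹ * p ^ 2 / 2 + K * q ^ 2 / 2 - p * q = K⁻¹ * (p - K * q) ^ 2 / 2 := by
          field_simp; ring
        have := mul_nonneg (inv_nonneg.2 hK0.le) (sq_nonneg (p - K * q))
        linarith
      have h2 : K * q ^ 2 ≤ τ ^ 2 * q ^ 2 :=
        mul_le_mul_of_nonneg_right (hKτ.trans (by nlinarith)) (sq_nonneg _)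
      linarith
    have b2 : |2 * τ * ⟪Complex.I * d b ψ x, ψ x⟫| ≤ N / 2 + 2 * α * (τ ^ 2 * ‖ψ x‖ ^ 2) := by
      rw [abs_mul, abs_of_pos (by positivity : 0 < 2 * τ)]
      have h1 := abs_real_inner_le_norm (Complex.I * d b ψ x) (ψ x)
      rw [norm_mul, Complex.norm_I, one_mul] at h1
      refine le_trans (mul_le_mul_of_nonneg_left h1 (by positivity)) ?_
      have h2 := sq_nonneg (‖d b ψ x‖ - 2 * α * τ * ‖ψ x‖)
      rw [← mul_le_mul_iff_of_pos_left (show (0 : ℝ) < 2 * α by linarith)]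
      nlinarith
    have b3 : |α * (s x ^ 2 - τ ^ 2) * ⟪ψ x, ψ x⟫| ≤ 4 * α * (τ ^ 2 * ‖ψ x‖ ^ 2) := by
      rw [inner_self']
      by_cases hx : x ∈ S
      · have h2 := pow_le_pow_left₀ (by linarith [(hlb x hx).1]) (hlb x hx).2 2
        have : |α * (s x ^ 2 - τ ^ 2)| ≤ 4 * α * τ ^ 2 := by
          rw [abs_le]
          constructor <;> nlinarith [mul_le_mul_of_nonneg_left h2 ha.le,
            mul_nonneg ha.le (sq_nonneg (s x)), mul_nonneg ha.le (sq_nonneg τ)]
        rw [abs_mul, abs_of_nonneg (sq_nonneg ‖ψ x‖), ← mul_assoc (4 * α)]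
        exact mul_le_mul_of_nonneg_right this (sq_nonneg _)
      · simp [h0 x hx]
    linarith [abs_le.1 b1, abs_le.1 b2, abs_le.1 b3]
  have cont2 : ∀ v w, Continuous (d v (d w ψ)) := fun v w => (contDiff_d (c1 w) v).continuous
  have hLc : Continuous (Lop K τ a b ψ) := by
    unfold Lop
    have c1' := fun v => (c1 v).continuous
    have := hψ.continuous
    have := (contDiff_lin a).continuous
    fun_prop
  have hL0 : ∀ x ∉ S, Lop K τ a b ψ x = 0 := fun x hx => by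
    simp [Lop, h0 x hx, z0 _ x hx, d_zero_of_notMem hS.isClosed (z0 _) _ x hx]
  have iL : Integrable fun x => ‖Lop K τ a b ψ x‖ ^ 2 :=
    intg hS (by fun_prop) fun x hx => by simp [hL0 x hx]
  have i2 : Integrable fun x => ‖ψ x‖ ^ 2 :=
    intg hS (hψ.continuous.norm.pow 2) fun x hx => by simp [h0 x hx]
  have iN : Integrable fun x => ∑ j, ‖d (e j) ψ x‖ ^ 2 :=
    integrable_finsetSum _ fun j _ => intg hS ((c1 _).continuous.norm.pow 2) fun x hx => by
      simp [z0 _ x hx]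
  refine ⟨?_, ?_⟩
  · calc _ = ∫ x, (4 * D x + 2 * K * α ^ 2 * (τ ^ 2 * ‖ψ x‖ ^ 2)) := by
          rw [integral_add (iD.const_mul _) ((i2.const_mul _).const_mul _), integral_const_mul, hD,
            integral_const_mul, integral_const_mul]
          ring
      _ ≤ _ := integral_mono ((iD.const_mul _).add ((i2.const_mul _).const_mul _)) iL p1
  · calc _ ≤ ∫ x, (2 * D' x + K⁻¹ * ‖Lop K τ a b ψ x‖ ^ 2 + (1 + 12 * α) * (τ ^ 2 * ‖ψ x‖ ^ 2)) :=
          integral_mono iN (((iD'.const_mul _).add (iL.const_mul _)).add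
            ((i2.const_mul _).const_mul _)) p2
      _ = _ := by
          rw [integral_add (f := fun x => 2 * D' x + K⁻¹ * ‖Lop K τ a b ψ x‖ ^ 2)
              ((iD'.const_mul _).add (iL.const_mul _)) ((i2.const_mul _).const_mul _),
            integral_add (iD'.const_mul _) (iL.const_mul _), integral_const_mul, hD',
            integral_const_mul, integral_const_mul, integral_const_mul]
          ring

/-- The weight. -/
def Wt (a : Space) (x : Space) : ℝ := Real.exp (K * lin a x ^ 2)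

/-- The principal part. -/
def P0 (a b : Space) (φ : Space → ℂ) (x : Space) : ℂ :=
  (∑ j, d (e j) (d (e j) φ) x) - (2 * τ) • (d a φ x + Complex.I * d b φ x)

/-- The weighted estimate for the principal part. -/
theorem scalar_estimate (hab : nsq b = nsq a) (horth : lin a b = 0) (ha : 0 < nsq a)
    {φ : Space → ℂ} (hφ : ContDiff ℝ ∞ φ) (hS : IsCompact S) (h0 : ∀ x ∉ S, φ x = 0)
    (hK : 1 ≤ K) (hKτ : K ≤ τ) (hl : ∀ x ∈ S, 2 * |K * lin a x| ≤ τ) :
    τ ^ 2 * (∫ x, Wt K a x * ‖φ x‖ ^ 2) + (∑ j, ∫ x, Wt K a x * ‖d (e j) φ x‖ ^ 2) ≤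
      ((3 + 26 * nsq a) / (2 * nsq a ^ 2) + 2) / K * ∫ x, Wt K a x * ‖P0 τ a b φ x‖ ^ 2 := by
  set E : Space → ℝ := fun x => Real.exp (K * lin a x ^ 2 / 2) with hE
  have hEs : ContDiff ℝ ∞ E := by
    have := contDiff_lin a
    rw [hE]; fun_prop
  have hdE : ∀ v x, d v E x = E x * (K * lin a x * lin a v) := by
    intro v x
    have h1 : HasFDerivAt (lin a) (fderiv ℝ (lin a) x) x := (diff (contDiff_lin a) x).hasFDerivAt
    have h2 := (((h1.pow 2).const_mul K).mul_const (2⁻¹ : ℝ)).exp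
    have h3 : E = fun y => Real.exp (K * lin a y ^ 2 * 2⁻¹) := by
      funext y; simp only [hE]; ring_nf
    show fderiv ℝ E x v = _
    rw [h3, h2.fderiv]
    simp only [smul_apply, smul_eq_mul, nsmul_eq_mul]
    rw [show fderiv ℝ (lin a) x v = lin a v from d_lin a v x]
    push_cast
    ring
  let ψ : Space → ℂ := fun x => E x • φ x
  have hψ : ContDiff ℝ ∞ ψ := hEs.smul hφ
  have h0' : ∀ x ∉ S, ψ x = 0 := fun x hx => by simp [ψ, h0 x hx]
  have hd1 : ∀ v, d v ψ = fun x => E x • (d v φ x + (K * lin a x * lin a v) • φ x) := by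
    intro v; funext x
    show d v (fun y => E y • φ y) x = _
    rw [d_smul (diff hEs) (diff hφ), hdE, smul_add, smul_smul]
  have hd2 : ∀ j x, d (e j) (d (e j) ψ) x = E x • (d (e j) (d (e j) φ) x +
      (2 * (K * lin a x * a j)) • d (e j) φ x +
      (K * a j ^ 2 + (K * lin a x * a j) ^ 2) • φ x) := by
    intro j x
    have q : ContDiff ℝ ∞ fun y => K * lin a y * lin a (e j) :=
      ((contDiff_const.mul (contDiff_lin a)).mul contDiff_const)
    rw [hd1, d_smul (diff hEs) ((diff (contDiff_d hφ _)).fun_add ((diff q).fun_smul (diff hφ))),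
      d_add (diff (contDiff_d hφ _)) ((diff q).fun_smul (diff hφ)), d_smul (diff q) (diff hφ), hdE]
    have : d (e j) (fun y => K * lin a y * lin a (e j)) x = K * a j * a j := by
      show fderiv ℝ (fun y => K * lin a y * lin a (e j)) x (e j) = _
      rw [fderiv_mul_const ((diff (contDiff_lin a) x).const_mul K),
        fderiv_const_mul (diff (contDiff_lin a) x)]
      simp only [smul_apply, smul_eq_mul]
      rw [show fderiv ℝ (lin a) x (e j) = lin a (e j) from d_lin a (e j) x, lin_e]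
      ring
    rw [this, lin_e]
    apply Complex.ext <;>
      simp only [Complex.add_re, Complex.add_im, Complex.smul_re, Complex.smul_im, smul_eq_mul] <;>
      ring
  have hL : ∀ x, Lop K τ a b ψ x = E x • P0 τ a b φ x := by
    intro x
    have hda : d a φ x = ∑ j, a j • d (e j) φ x := d_sum a φ x
    have hn : nsq a = a 0 ^ 2 + a 1 ^ 2 + a 2 ^ 2 := by simp [nsq, Fin.sum_univ_three]
    simp only [Lop, P0, hd2]
    simp only [hd1, lin_self, horth]
    rw [hda, hn]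
    simp only [ψ, Fin.sum_univ_three]
    apply Complex.ext <;>
      simp only [Complex.add_re, Complex.add_im, Complex.sub_re, Complex.sub_im, Complex.mul_re,
        Complex.mul_im, Complex.smul_re, Complex.smul_im, Complex.I_re, Complex.I_im, smul_eq_mul,
        Complex.neg_re, Complex.neg_im] <;>
      ring
  obtain ⟨hA, hB⟩ := conjugated_estimate K τ hab horth ha hψ hS h0' hK hKτ hl
  have hK0 : 0 < K := lt_of_lt_of_le one_pos hK
  have hW : ∀ x, Wt K a x = E x ^ 2 := fun x => by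
    rw [hE, Wt, sq (Real.exp _), ← Real.exp_add]; ring_nf
  have hnE : ∀ x (z : ℂ), ‖E x • z‖ ^ 2 = Wt K a x * ‖z‖ ^ 2 := fun x z => by
    rw [norm_smul, mul_pow, Real.norm_eq_abs, sq_abs, hW]
  have e1 : (∫ x, ‖Lop K τ a b ψ x‖ ^ 2) = ∫ x, Wt K a x * ‖P0 τ a b φ x‖ ^ 2 := by
    simp only [hL, hnE]
  have e2 : (∫ x, ‖ψ x‖ ^ 2) = ∫ x, Wt K a x * ‖φ x‖ ^ 2 := by
    simp only [ψ, hnE]
  have pw : ∀ x j, Wt K a x * ‖d (e j) φ x‖ ^ 2 ≤
      2 * ‖d (e j) ψ x‖ ^ 2 + nsq a / 2 * (τ ^ 2 * ‖ψ x‖ ^ 2) := by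
    intro x j
    have h : E x • d (e j) φ x = d (e j) ψ x - (K * lin a x * a j) • ψ x := by
      rw [hd1, lin_e]
      simp only [ψ]
      rw [smul_add, smul_comm (E x) (K * lin a x * a j) (φ x)]
      abel
    rw [← hnE, h]
    have h2 : ‖(K * lin a x * a j) • ψ x‖ ^ 2 ≤ nsq a / 4 * (τ ^ 2 * ‖ψ x‖ ^ 2) := by
      rw [norm_smul, mul_pow, Real.norm_eq_abs, sq_abs]
      by_cases hx : x ∈ S
      · have h3 : (K * lin a x) ^ 2 ≤ (τ / 2) ^ 2 := by
          rw [← sq_abs]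
          exact pow_le_pow_left₀ (abs_nonneg _) (by linarith [hl x hx]) 2
        have h4 : a j ^ 2 ≤ nsq a :=
          Finset.single_le_sum (f := fun i => a i ^ 2) (fun i _ => sq_nonneg _) (Finset.mem_univ j)
        have := mul_le_mul h3 h4 (sq_nonneg _) (sq_nonneg _)
        have := mul_le_mul_of_nonneg_right this (sq_nonneg ‖ψ x‖)
        linarith
      · simp [h0' x hx]
    have h5 := norm_sub_le (d (e j) ψ x) ((K * lin a x * a j) • ψ x)
    have h6 := pow_le_pow_left₀ (norm_nonneg _) h5 2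
    nlinarith [sq_nonneg (‖d (e j) ψ x‖ - ‖(K * lin a x * a j) • ψ x‖)]
  have i2 : Integrable fun x => ‖ψ x‖ ^ 2 :=
    intg hS (hψ.continuous.norm.pow 2) fun x hx => by simp [h0' x hx]
  have i3 : ∀ j, Integrable fun x => ‖d (e j) ψ x‖ ^ 2 := fun j =>
    intg hS ((contDiff_d hψ _).continuous.norm.pow 2) fun x hx => by
      simp [d_zero_of_notMem hS.isClosed h0' _ x hx]
  have hWc : Continuous (Wt K a) := by
    have := (contDiff_lin a).continuous
    unfold Wt; fun_prop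
  have i4 : ∀ j, Integrable fun x => Wt K a x * ‖d (e j) φ x‖ ^ 2 := fun j =>
    intg hS (hWc.mul ((contDiff_d hφ _).continuous.norm.pow 2)) fun x hx => by
      simp [d_zero_of_notMem hS.isClosed h0 _ x hx]
  have e3 : ∀ j, (∫ x, Wt K a x * ‖d (e j) φ x‖ ^ 2) ≤
      2 * (∫ x, ‖d (e j) ψ x‖ ^ 2) + nsq a / 2 * (τ ^ 2 * ∫ x, ‖ψ x‖ ^ 2) := by
    intro j
    have := integral_mono (i4 j) (((i3 j).const_mul 2).add ((i2.const_mul _).const_mul _))
      fun x => pw x j
    rwa [integral_add' ((i3 j).const_mul 2) ((i2.const_mul _).const_mul _), integral_const_mul,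
      integral_const_mul, integral_const_mul] at this
  rw [integral_finsetSum _ fun j _ => i3 j, e1] at hB
  rw [e1] at hA
  rw [Fin.sum_univ_three] at hB ⊢
  have f0 := e3 0
  have f1 := e3 1
  have f2 := e3 2
  rw [← e2]
  set X := τ ^ 2 * ∫ x, ‖ψ x‖ ^ 2 with hX
  set Y := ∫ x, Wt K a x * ‖P0 τ a b φ x‖ ^ 2 with hY
  set α := nsq a with hα
  have hX' : X ≤ Y / (2 * K * α ^ 2) := by
    rw [le_div_iff₀ (by positivity)]; linarith
  have hle := mul_le_mul_of_nonneg_left hX' (show (0 : ℝ) ≤ 3 + 26 * α by linarith)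
  have e4 : ((3 + 26 * α) / (2 * α ^ 2) + 2) / K * Y =
      (3 + 26 * α) * (Y / (2 * K * α ^ 2)) + 2 * (K⁻¹ * Y) := by
    field_simp
  rw [e4]
  have : 0 ≤ X := mul_nonneg (sq_nonneg _) (integral_nonneg fun x => sq_nonneg _)
  nlinarith

end scalar

/-- The components of an amplitude. -/
def comp : Option (Fin 3) → Amp →L[ℂ] ℂ
  | none => ContinuousLinearMap.snd ℂ C3 ℂ
  | some i => (ContinuousLinearMap.proj i).comp (ContinuousLinearMap.fst ℂ C3 ℂ)

theorem ampSqr_eq (Y : Amp) : ampSqr Y = ∑ k, ‖comp k Y‖ ^ 2 := by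
  simp [ampSqr, comp, Fintype.sum_option, add_comm]

theorem continuous_ampSqr : Continuous ampSqr := by
  unfold ampSqr; fun_prop

theorem ampSqr_zero : ampSqr (0 : Amp) = 0 := by simp [ampSqr]

theorem ampSqr_nonneg (Y : Amp) : 0 ≤ ampSqr Y := by rw [ampSqr_eq]; positivity

theorem norm_sq_le_ampSqr (Y : Amp) : ‖Y‖ ^ 2 ≤ ampSqr Y := by
  have h : ‖Y‖ ≤ Real.sqrt (ampSqr Y) := by
    refine max_le ?_ ?_
    · rw [pi_norm_le_iff_of_nonneg (Real.sqrt_nonneg _)]
      intro i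
      refine (le_of_eq (Real.sqrt_sq (norm_nonneg _)).symm).trans (Real.sqrt_le_sqrt ?_)
      exact (Finset.single_le_sum (f := fun j => ‖Y.1 j‖ ^ 2) (fun j _ => sq_nonneg _)
        (Finset.mem_univ i)).trans (le_add_of_nonneg_right (sq_nonneg _))
    · refine (le_of_eq (Real.sqrt_sq (norm_nonneg _)).symm).trans (Real.sqrt_le_sqrt ?_)
      exact le_add_of_nonneg_left (Finset.sum_nonneg fun j _ => sq_nonneg _)
  calc ‖Y‖ ^ 2 ≤ Real.sqrt (ampSqr Y) ^ 2 := pow_le_pow_left₀ (norm_nonneg _) h 2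
    _ = _ := Real.sq_sqrt (ampSqr_nonneg Y)

theorem ampSqr_le_norm_sq (Y : Amp) : ampSqr Y ≤ 4 * ‖Y‖ ^ 2 := by
  have h1 : ∀ i, ‖Y.1 i‖ ^ 2 ≤ ‖Y‖ ^ 2 := fun i =>
    pow_le_pow_left₀ (norm_nonneg _) ((norm_le_pi_norm _ i).trans (norm_fst_le Y)) 2
  have h2 : ‖Y.2‖ ^ 2 ≤ ‖Y‖ ^ 2 := pow_le_pow_left₀ (norm_nonneg _) (norm_snd_le Y) 2
  simp only [ampSqr, Fin.sum_univ_three]
  linarith [h1 0, h1 1, h1 2]

theorem ampSqr_sub_le (X Y : Amp) : ampSqr (X - Y) ≤ 2 * ampSqr X + 2 * ampSqr Y := by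
  simp only [ampSqr_eq, map_sub, Finset.mul_sum, ← Finset.sum_add_distrib]
  refine Finset.sum_le_sum fun k _ => ?_
  have := pow_le_pow_left₀ (norm_nonneg _) (norm_sub_le (comp k X) (comp k Y)) 2
  nlinarith [sq_nonneg (‖comp k X‖ - ‖comp k Y‖)]

theorem pd_comp (k : Option (Fin 3)) {φ : Space → Amp} (hφ : Differentiable ℝ φ) (v : Space)
    (x : Space) : d v (fun y => comp k (φ y)) x = comp k (d v φ x) := by
  show fderiv ℝ (fun y => ((comp k).restrictScalars ℝ) (φ y)) x v = _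
  have h : HasFDerivAt (fun y => ((comp k).restrictScalars ℝ) (φ y))
      (((comp k).restrictScalars ℝ).comp (fderiv ℝ φ x)) x :=
    ((comp k).restrictScalars ℝ).hasFDerivAt.comp x (hφ x).hasFDerivAt
  rw [h.fderiv]
  rfl

theorem lower_bound {τ M : ℝ} (hτ1 : 1 ≤ τ) (B v : Amp) (p : Fin 3 → Amp) (n : Fin 3 → ℝ) (n₀ nτ : ℝ)
    (hn : ∀ i, 0 ≤ n i) (hn₀ : 0 ≤ n₀) (hnτ : 0 ≤ nτ) (hm : n 0 + n 1 + n 2 + n₀ + nτ ≤ M)
    (t2 : ‖B‖ ≤ n 0 * ‖p 0‖ + n 1 * ‖p 1‖ + n 2 * ‖p 2‖ + n₀ * ‖v‖ + τ * (nτ * ‖v‖)) :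
    ampSqr B ≤ 12 * M ^ 2 * ((∑ i, ampSqr (p i)) + τ ^ 2 * ampSqr v) := by
  refine (ampSqr_le_norm_sq _).trans ?_
  simp only [Fin.sum_univ_three]
  obtain ⟨m, hm'⟩ : ∃ m, m = Real.sqrt ((ampSqr (p 0) + ampSqr (p 1) +
      ampSqr (p 2)) + τ ^ 2 * ampSqr (v)) := ⟨_, rfl⟩
  have hm0 : 0 ≤ m := hm' ▸ Real.sqrt_nonneg _
  have hm2 : m ^ 2 = ampSqr (p 0) + ampSqr (p 1) + ampSqr (p 2) +
      τ ^ 2 * ampSqr (v) := by
    rw [hm']; exact Real.sq_sqrt (by
      have := ampSqr_nonneg (p 0); have := ampSqr_nonneg (p 1)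
      have := ampSqr_nonneg (p 2); have := ampSqr_nonneg (v)
      positivity)
  have le_m : ∀ p : ℝ, 0 ≤ p → p ^ 2 ≤ m ^ 2 → p ≤ m := fun p hp hp2 =>
    (pow_le_pow_iff_left₀ hp hm0 two_ne_zero).1 hp2
  have hτφ : 0 ≤ τ ^ 2 * ampSqr (v) := mul_nonneg (sq_nonneg _) (ampSqr_nonneg _)
  have q : ∀ i : Fin 3, ‖p i‖ ≤ m := by
    intro i
    refine le_m _ (norm_nonneg _) ((norm_sq_le_ampSqr _).trans ?_)
    have := ampSqr_nonneg (p 0); have := ampSqr_nonneg (p 1)
    have := ampSqr_nonneg (p 2)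
    rw [hm2]
    fin_cases i <;> simp only [Fin.zero_eta, Fin.mk_one, Fin.reduceFinMk] <;> linarith
  have qφ : τ * ‖v‖ ≤ m := by
    refine le_m _ (by positivity) ?_
    rw [mul_pow, hm2]
    have := ampSqr_nonneg (p 0); have := ampSqr_nonneg (p 1)
    have := ampSqr_nonneg (p 2)
    have := mul_le_mul_of_nonneg_left (norm_sq_le_ampSqr (v)) (sq_nonneg τ)
    linarith
  have qφ1 : ‖v‖ ≤ m := le_trans (le_mul_of_one_le_left (norm_nonneg _) hτ1) qφ
  have hB' : ‖B‖ ≤ M * m := by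
    refine t2.trans ?_
    have := mul_le_mul_of_nonneg_left (q 0) (hn 0)
    have := mul_le_mul_of_nonneg_left (q 1) (hn 1)
    have := mul_le_mul_of_nonneg_left (q 2) (hn 2)
    have := mul_le_mul_of_nonneg_left qφ1 hn₀
    have := mul_le_mul_of_nonneg_left qφ hnτ
    have := mul_le_mul_of_nonneg_right hm hm0
    linarith
  have := pow_le_pow_left₀ (norm_nonneg _) hB' 2
  rw [mul_pow, hm2] at this
  nlinarith [sq_nonneg ‖B‖]

theorem vector_estimate {θ : C3} {a c : Space} (ha' : ∀ i, a i = (θ i).re) (hc' : ∀ i, c i = (θ i).im)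
    (hre : nsq c = nsq a) (horth : lin a c = 0) (ha : 0 < nsq a) {S : Set Space} (hS : IsCompact S)
    {φ : Space → Amp} (hφ : ContDiff ℝ ∞ φ) (h0 : ∀ x ∉ S, φ x = 0) {K τ : ℝ} (hK1 : 1 ≤ K)
    (hKτ : K ≤ τ) (hl : ∀ x ∈ S, 2 * |K * lin a x| ≤ τ)
    (P : Space → Amp) (hP : ∀ x, P x = lap φ x - (2 * (τ : ℂ)) • Dth θ φ x)
    (hPc : Continuous P) (hP0 : ∀ x ∉ S, P x = 0) :
    τ ^ 2 * (∫ x, Wt K a x * ampSqr (φ x)) + (∑ i, ∫ x, Wt K a x * ampSqr (pd i φ x)) ≤
      ((3 + 26 * nsq a) / (2 * nsq a ^ 2) + 2) / K * ∫ x, Wt K a x * ampSqr (P x) := by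
  have hpd : ∀ i, ContDiff ℝ ∞ (pd i φ) := fun i => contDiff_d hφ (e i)
  have hp0 : ∀ i, ∀ x ∉ S, pd i φ x = 0 := fun i => d_zero_of_notMem hS.isClosed h0 (e i)
  have hWc : Continuous (Wt K a) := by
    have := (contDiff_lin a).continuous
    unfold Wt; fun_prop
  have key : ∀ k, τ ^ 2 * (∫ x, Wt K a x * ‖Carl.comp k (φ x)‖ ^ 2) +
      (∑ i, ∫ x, Wt K a x * ‖Carl.comp k (pd i φ x)‖ ^ 2) ≤
      ((3 + 26 * nsq a) / (2 * nsq a ^ 2) + 2) / K * ∫ x, Wt K a x * ‖Carl.comp k (P x)‖ ^ 2 := by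
    intro k
    have hc : ContDiff ℝ ∞ fun y => Carl.comp k (φ y) :=
      ((Carl.comp k).restrictScalars ℝ).contDiff.comp hφ
    have h := scalar_estimate K τ hre horth ha hc hS (fun x hx => by simp [h0 x hx]) hK1 hKτ hl
    have e1 : ∀ i x, d (e i) (fun y => Carl.comp k (φ y)) x = Carl.comp k (pd i φ x) :=
      fun i x => pd_comp k (diff hφ) (e i) x
    have e2 : ∀ x, P0 τ a c (fun y => Carl.comp k (φ y)) x = Carl.comp k (P x) := by
      intro x
      have e4 : ∀ i, d (e i) (d (e i) fun y => Carl.comp k (φ y)) x =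
          Carl.comp k (pd i (pd i φ) x) := by
        intro i
        rw [funext (e1 i)]
        exact pd_comp k (diff (hpd i)) (e i) x
      show (∑ i, d (e i) (d (e i) fun y => Carl.comp k (φ y)) x) -
        (2 * τ) • (d a (fun y => Carl.comp k (φ y)) x +
          Complex.I * d c (fun y => Carl.comp k (φ y)) x) = _
      rw [d_sum a, d_sum c]
      simp only [e4, e1]
      rw [hP]
      show _ = Carl.comp k ((∑ i, pd i (pd i φ) x) - (2 * (τ : ℂ)) • ∑ i, θ i • pd i φ x)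
      simp only [map_sub, map_smul, map_add, Fin.sum_univ_three, smul_eq_mul, Complex.real_smul]
      conv_rhs => rw [← Complex.re_add_im (θ 0), ← Complex.re_add_im (θ 1),
        ← Complex.re_add_im (θ 2)]
      simp only [ha', hc']
      push_cast
      ring
    simp only [e1, e2] at h
    exact h
  have ex : ∀ {f : Space → Amp}, Continuous f → (∀ x ∉ S, f x = 0) →
      (∫ x, Wt K a x * ampSqr (f x)) = ∑ k, ∫ x, Wt K a x * ‖Carl.comp k (f x)‖ ^ 2 := by
    intro f hf hz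
    simp only [ampSqr_eq, Finset.mul_sum]
    exact integral_finsetSum _ fun k _ => intg hS
      (hWc.mul (((Carl.comp k).continuous.comp hf).norm.pow 2)) fun x hx => by simp [hz x hx]
  rw [ex hφ.continuous h0, Finset.sum_congr rfl fun i _ => ex (hpd i).continuous (hp0 i),
    ex hPc hP0, Finset.mul_sum, Finset.sum_comm, ← Finset.sum_add_distrib, Finset.mul_sum]
  exact Finset.sum_le_sum fun k _ => key k

end

end Vale.Agent.P136.Full.Carl

namespace Vale.Agent.P136.Full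

open Carl

noncomputable section

/-- Module A. -/
theorem carleman : CarlemanStmt := by
  intro θ hθ R b b₀ bτ hb hb₀ hbτ
  let a : Space := fun i => (θ i).re
  let c : Space := fun i => (θ i).im
  have hre : nsq c = nsq a := by
    have h := congrArg Complex.re hθ.1
    simp only [bdot, Fin.sum_univ_three, Complex.add_re, Complex.mul_re, Complex.zero_re] at h
    simp only [nsq, Fin.sum_univ_three, a, c]
    nlinarith
  have horth : lin a c = 0 := by
    have h := congrArg Complex.im hθ.1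
    simp only [bdot, Fin.sum_univ_three, Complex.add_im, Complex.mul_im, Complex.zero_im] at h
    simp only [lin, Fin.sum_univ_three, a, c]
    nlinarith
  have ha : 0 < nsq a := by
    rcases (Finset.sum_nonneg fun i _ => sq_nonneg (a i) : 0 ≤ nsq a).lt_or_eq with h | h
    · exact h
    · refine absurd (funext fun i => ?_) hθ.2
      have h1 := (Finset.sum_eq_zero_iff_of_nonneg fun i _ => sq_nonneg (a i)).1 h.symm i
        (Finset.mem_univ _)
      have h2 := (Finset.sum_eq_zero_iff_of_nonneg fun i _ => sq_nonneg (c i)).1 (hre.trans h.symm) i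
        (Finset.mem_univ _)
      exact Complex.ext (pow_eq_zero_iff (two_ne_zero) |>.1 h1) (pow_eq_zero_iff (two_ne_zero) |>.1 h2)
  set S := Metric.closedBall (0 : Space) R with hSdef
  have hS : IsCompact S := isCompact_closedBall _ _
  obtain ⟨M, hM⟩ : ∃ M : ℝ, ∀ x ∈ S, (∑ i, ‖b x i‖) + ‖b₀ x‖ + ‖bτ x‖ ≤ M := by
    obtain ⟨M, hM⟩ := (hS.bddAbove_image (f := fun x => (∑ i, ‖b x i‖) + ‖b₀ x‖ + ‖bτ x‖)
      (by fun_prop))
    exact ⟨M, fun x hx => hM ⟨x, hx, rfl⟩⟩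
  obtain ⟨C₀, hC₀⟩ : ∃ C₀ : ℝ, C₀ = (3 + 26 * nsq a) / (2 * nsq a ^ 2) + 2 := ⟨_, rfl⟩
  have hC0 : 0 < C₀ := by rw [hC₀]; positivity
  obtain ⟨K, hK⟩ : ∃ K : ℝ, K = max 1 (100 * C₀ * M ^ 2) := ⟨_, rfl⟩
  have hK1 : 1 ≤ K := hK ▸ le_max_left _ _
  have hKM : 100 * C₀ * M ^ 2 ≤ K := hK ▸ le_max_right _ _
  clear hK
  obtain ⟨L, hL⟩ : ∃ L : ℝ, L = (∑ i, |a i|) * |R| := ⟨_, rfl⟩
  have hlin : ∀ x ∈ S, |lin a x| ≤ L := by
    intro x hx
    rw [hL, Finset.sum_mul]
    refine (Finset.abs_sum_le_sum_abs _ _).trans (Finset.sum_le_sum fun i _ => ?_)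
    rw [abs_mul]
    refine mul_le_mul_of_nonneg_left ?_ (abs_nonneg _)
    rw [hSdef, mem_closedBall_zero_iff] at hx
    exact ((Real.norm_eq_abs _).symm.trans_le (norm_le_pi_norm x i)).trans (hx.trans (le_abs_self R))
  refine ⟨2 * C₀ / K * Real.exp (K * L ^ 2) * 2, max K (2 * K * L), by positivity,
    hK1.trans (le_max_left _ _), fun τ hτ φ hφ hsupp => ?_⟩
  have hKτ : K ≤ τ := (le_max_left _ _).trans hτ
  have hτ1 : 1 ≤ τ := hK1.trans hKτ
  have hl : ∀ x ∈ S, 2 * |K * lin a x| ≤ τ := fun x hx => by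
    rw [abs_mul, abs_of_pos (lt_of_lt_of_le one_pos hK1)]
    have := mul_le_mul_of_nonneg_left (hlin x hx) (zero_le_one.trans hK1)
    linarith [(le_max_right K (2 * K * L)).trans hτ]
  have h0 : ∀ x ∉ S, φ x = 0 := fun x hx => hsupp x (by
    rw [hSdef, mem_closedBall_zero_iff, not_le] at hx; exact hx)
  have hpd : ∀ i, ContDiff ℝ ∞ (pd i φ) := fun i => contDiff_d hφ (e i)
  have hp0 : ∀ i, ∀ x ∉ S, pd i φ x = 0 := fun i => d_zero_of_notMem hS.isClosed h0 (e i)
  have hWc : Continuous (Wt K a) := by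
    have := (contDiff_lin a).continuous
    unfold Wt; fun_prop
  have int : ∀ {f : Space → Amp}, Continuous f → (∀ x ∉ S, f x = 0) →
      Integrable (fun x => Wt K a x * ampSqr (f x)) ∧ Integrable (fun x => ampSqr (f x)) :=
    fun hf hz => ⟨intg hS (hWc.mul (continuous_ampSqr.comp hf)) fun x hx => by
      simp [hz x hx, ampSqr_zero], intg hS (continuous_ampSqr.comp hf) fun x hx => by
      simp [hz x hx, ampSqr_zero]⟩
  -- principal part and lower order part
  let P : Space → Amp := fun x => lap φ x - (2 * (τ : ℂ)) • Dth θ φ x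
  let B : Space → Amp := fun x => (∑ i, b x i (pd i φ x)) + b₀ x (φ x) + (τ : ℂ) • bτ x (φ x)
  let T : Space → Amp := fun x => lap φ x - (2 * (τ : ℂ)) • Dth θ φ x + (∑ i, b x i (pd i φ x)) +
    b₀ x (φ x) + (τ : ℂ) • bτ x (φ x)
  show τ ^ 2 * (∫ x, ampSqr (φ x)) + (∫ x, ∑ i, ampSqr (pd i φ x)) ≤ _ * ∫ x, ampSqr (T x)
  have hPc : Continuous P := by
    have h1 := fun i => (contDiff_d (hpd i) (e i)).continuous
    have h2 := fun i => (hpd i).continuous
    show Continuous fun x => (∑ i, pd i (pd i φ) x) - (2 * (τ : ℂ)) • ∑ i, θ i • pd i φ x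
    exact Continuous.sub (f := fun x => ∑ i, pd i (pd i φ) x)
      (continuous_finsetSum _ fun i _ => h1 i)
      (Continuous.smul (f := fun _ : Space => (2 * (τ : ℂ))) (g := fun x => ∑ i, θ i • pd i φ x)
        continuous_const (continuous_finsetSum _ fun i _ =>
          Continuous.smul (f := fun _ : Space => θ i) (g := pd i φ) continuous_const (h2 i)))
  have hBc : Continuous B := by
    have h2 := fun i => (hpd i).continuous
    exact ((continuous_finsetSum _ fun i _ => ((continuous_apply i).comp hb).clm_apply (h2 i)).add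
      (hb₀.clm_apply hφ.continuous)).add (Continuous.smul (f := fun _ : Space => (τ : ℂ))
        (g := fun x => bτ x (φ x)) continuous_const (hbτ.clm_apply hφ.continuous))
  have hP0 : ∀ x ∉ S, P x = 0 := fun x hx => by
    show (∑ i, pd i (pd i φ) x) - (2 * (τ : ℂ)) • (∑ i, θ i • pd i φ x) = 0
    simp [hp0 _ x hx, show ∀ i, pd i (pd i φ) x = 0 from fun i =>
      d_zero_of_notMem hS.isClosed (hp0 i) (e i) x hx]
  have hB0 : ∀ x ∉ S, B x = 0 := fun x hx => by simp [B, hp0 _ x hx, h0 x hx]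
  have hTP : ∀ x, P x = T x - B x := fun x => by simp only [P, T, B]; abel
  have hTc : Continuous T := by
    have : T = fun x => P x + B x := by funext x; rw [hTP x]; abel
    rw [this]; exact hPc.add hBc
  have hT0 : ∀ x ∉ S, T x = 0 := fun x hx => by
    have := hTP x
    rw [hP0 x hx, hB0 x hx, sub_zero] at this
    exact this.symm
  -- the scalar estimate, summed
  have hsc := vector_estimate (θ := θ) (a := a) (c := c) (fun i => rfl) (fun i => rfl) hre horth ha hS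
    hφ h0 hK1 hKτ hl P (fun x => rfl) hPc hP0
  rw [← hC₀] at hsc
  have hBpt : ∀ x, ampSqr (B x) ≤
      12 * M ^ 2 * ((∑ i, ampSqr (pd i φ x)) + τ ^ 2 * ampSqr (φ x)) := by
    intro x
    by_cases hx : x ∈ S
    · have hm := hM x hx
      simp only [Fin.sum_univ_three] at hm
      refine lower_bound hτ1 (B x) (φ x) (fun i => pd i φ x) (fun i => ‖b x i‖) ‖b₀ x‖ ‖bτ x‖
        (fun i => norm_nonneg _) (norm_nonneg _) (norm_nonneg _) hm ?_
      simp only [B, Fin.sum_univ_three]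
      refine (norm_add_le _ _).trans (add_le_add ((norm_add_le _ _).trans (add_le_add ?_
        ((b₀ x).le_opNorm _))) ?_)
      · exact (norm_add₃_le).trans (add_le_add (add_le_add ((b x 0).le_opNorm _)
          ((b x 1).le_opNorm _)) ((b x 2).le_opNorm _))
      · rw [norm_smul, Complex.norm_real, Real.norm_of_nonneg (zero_le_one.trans hτ1)]
        exact mul_le_mul_of_nonneg_left ((bτ x).le_opNorm _) (zero_le_one.trans hτ1)
    · rw [hB0 x hx, ampSqr_zero]
      exact mul_nonneg (mul_nonneg (by norm_num) (sq_nonneg M))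
        (add_nonneg (Finset.sum_nonneg fun i _ => ampSqr_nonneg _)
          (mul_nonneg (sq_nonneg τ) (ampSqr_nonneg _)))
  set Z := τ ^ 2 * (∫ x, Wt K a x * ampSqr (φ x)) + (∑ i, ∫ x, Wt K a x * ampSqr (pd i φ x)) with hZ
  have hB2 : (∫ x, Wt K a x * ampSqr (B x)) ≤ 12 * M ^ 2 * Z := by
    have i5 : Integrable fun x => ∑ i, Wt K a x * ampSqr (pd i φ x) :=
      integrable_finsetSum _ fun i _ => (int (hpd i).continuous (hp0 i)).1
    have i6 := ((int hφ.continuous h0).1).const_mul (τ ^ 2)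
    refine (integral_mono (int hBc hB0).1 ((i6.add i5).const_mul (12 * M ^ 2)) fun x => ?_).trans_eq ?_
    · have := mul_le_mul_of_nonneg_left (hBpt x) (Real.exp_nonneg (K * lin a x ^ 2))
      simp only [Fin.sum_univ_three] at this
      simp only [Pi.add_apply, Fin.sum_univ_three, Wt]
      linarith
    · rw [integral_const_mul, integral_add' i6 i5, integral_const_mul,
        integral_finsetSum _ fun i _ => (int (hpd i).continuous (hp0 i)).1]
  have hP2 : (∫ x, Wt K a x * ampSqr (P x)) ≤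
      2 * (∫ x, Wt K a x * ampSqr (T x)) + 2 * ∫ x, Wt K a x * ampSqr (B x) := by
    refine (integral_mono (int hPc hP0).1 (((int hTc hT0).1.const_mul 2).add
      ((int hBc hB0).1.const_mul 2)) fun x => ?_).trans_eq ?_
    · have := mul_le_mul_of_nonneg_left (ampSqr_sub_le (T x) (B x)) (Real.exp_nonneg (K * lin a x ^ 2))
      rw [← hTP] at this
      simp only [Pi.add_apply, Wt]
      linarith
    · rw [integral_add' ((int hTc hT0).1.const_mul 2) ((int hBc hB0).1.const_mul 2),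
        integral_const_mul, integral_const_mul]
  have hW1 : ∀ x, 1 ≤ Wt K a x := fun x => Real.one_le_exp (by positivity)
  have hlow : τ ^ 2 * (∫ x, ampSqr (φ x)) + (∫ x, ∑ i, ampSqr (pd i φ x)) ≤ Z := by
    rw [integral_finsetSum _ fun i _ => (int (hpd i).continuous (hp0 i)).2]
    refine add_le_add (mul_le_mul_of_nonneg_left (integral_mono (int hφ.continuous h0).2
      (int hφ.continuous h0).1 fun x => le_mul_of_one_le_left (ampSqr_nonneg _) (hW1 x))
      (sq_nonneg τ)) (Finset.sum_le_sum fun i _ => integral_mono (int (hpd i).continuous (hp0 i)).2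
      (int (hpd i).continuous (hp0 i)).1 fun x => le_mul_of_one_le_left (ampSqr_nonneg _) (hW1 x))
  have hup : (∫ x, Wt K a x * ampSqr (T x)) ≤ Real.exp (K * L ^ 2) * ∫ x, ampSqr (T x) := by
    rw [← integral_const_mul]
    refine integral_mono (int hTc hT0).1 ((int hTc hT0).2.const_mul _) fun x => ?_
    by_cases hx : x ∈ S
    · refine mul_le_mul_of_nonneg_right (Real.exp_le_exp.2 (mul_le_mul_of_nonneg_left ?_
        (zero_le_one.trans hK1))) (ampSqr_nonneg _)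
      rw [← sq_abs]
      exact pow_le_pow_left₀ (abs_nonneg _) (hlin x hx) 2
    · simp [hT0 x hx, ampSqr_zero]
  have hZ0 : 0 ≤ Z := le_trans (by
    have : 0 ≤ ∫ x, ampSqr (φ x) := integral_nonneg fun x => ampSqr_nonneg _
    have : 0 ≤ ∫ x, ∑ i, ampSqr (pd i φ x) :=
      integral_nonneg fun x => Finset.sum_nonneg fun i _ => ampSqr_nonneg _
    positivity) hlow
  have hKpos : 0 < K := lt_of_lt_of_le one_pos hK1
  have h24 : C₀ / K * (24 * M ^ 2) ≤ 1 / 2 := by
    rw [div_mul_eq_mul_div, div_le_iff₀ hKpos]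
    nlinarith [mul_nonneg hC0.le (sq_nonneg M)]
  have hCK : 0 ≤ C₀ / K := by positivity
  have s1 := mul_le_mul_of_nonneg_left hP2 hCK
  have s2 := mul_le_mul_of_nonneg_left hB2 hCK
  have s3 := mul_le_mul_of_nonneg_left hup hCK
  have s4 := mul_le_mul_of_nonneg_right h24 hZ0
  have e5 : 2 * C₀ / K * Real.exp (K * L ^ 2) * 2 = 4 * (C₀ / K * Real.exp (K * L ^ 2)) := by ring
  rw [e5]
  nlinarith

end

end Vale.Agent.P136.Full
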