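import Mathlib
import Vale.Agent.P136.Full.Spec

/-!
# P136: moduli admissible on a compact set extend to moduli admissible everywhere
-/

open MeasureTheory Set Metric
open scoped ContDiff Topology

namespace Vale.Agent.P136.Full

noncomputable section

/-- The equality of the maps only depends on the moduli in `Ω`. -/
theorem sameMap_congr {Ω : Set Space} (hΩ : IsOpen Ω) {l₁ m₁ l₂ m₂ l₁' m₁' l₂' m₂' : Space → ℝ}
    (h₁ : ∀ x ∈ Ω, l₁ x = l₁' x ∧ m₁ x = m₁' x) (h₂ : ∀ x ∈ Ω, l₂ x = l₂' x ∧ m₂ x = m₂' x)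
    (h : SameMap Ω l₁ m₁ l₂ m₂) : SameMap Ω l₁' m₁' l₂' m₂' := by
  have key : ∀ {l m l' m' : Space → ℝ}, (∀ x ∈ Ω, l x = l' x ∧ m x = m' x) →
      ∀ u, energy Ω l m u = energy Ω l' m' u := fun he u =>
    setIntegral_congr_fun hΩ.measurableSet fun x hx => by simp [density, (he x hx).1, (he x hx).2]
  intro f hf
  simpa only [minEnergy, key h₁, key h₂] using h f hf

/-- A smooth admissible pair on a compact set agrees there with moduli admissible everywhere. -/
theorem exists_moduli {K : Set Space} (hK : IsCompact K) {lam mu : Space → ℝ}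
    (hl : ContDiff ℝ ∞ lam) (hm : ContDiff ℝ ∞ mu)
    (hpos : ∀ x ∈ K, 0 < mu x ∧ 0 < 3 * lam x + 2 * mu x) :
    ∃ M : Moduli, ∀ x ∈ K, M.lam x = lam x ∧ M.mu x = mu x := by
  set U : Set Space := {x | 0 < mu x ∧ 0 < 3 * lam x + 2 * mu x}
  have hU : IsOpen U := (isOpen_lt continuous_const hm.continuous).inter
    (isOpen_lt continuous_const ((continuous_const.mul hl.continuous).add
      (continuous_const.mul hm.continuous)))
  have hd : Disjoint Uᶜ K := disjoint_left.2 fun x hx hxK => hx (hpos x hxK)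
  obtain ⟨χ, h0, h1, hχ⟩ := exists_contMDiffMap_zero_one_of_isClosed (n := (⊤ : ℕ∞))
    (modelWithCornersSelf ℝ Space) hU.isClosed_compl hK.isClosed hd
  have hs : ContDiff ℝ ∞ ⇑χ := contMDiff_iff_contDiff.1 χ.contMDiff
  refine ⟨⟨fun x => χ x * lam x + (1 - χ x), fun x => χ x * mu x + (1 - χ x), ?_, ?_, ?_, ?_⟩, ?_⟩
  · exact (hs.mul hl).add (contDiff_const.sub hs)
  · exact (hs.mul hm).add (contDiff_const.sub hs)
  · intro x
    obtain ⟨ha, hb⟩ := hχ x
    by_cases hx : x ∈ U
    · rcases eq_or_lt_of_le ha with hc | hc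
      · rw [← hc]; norm_num
      · nlinarith [hx.1]
    · simp [h0 hx]
  · intro x
    obtain ⟨ha, hb⟩ := hχ x
    by_cases hx : x ∈ U
    · rcases eq_or_lt_of_le ha with hc | hc
      · rw [← hc]; norm_num
      · nlinarith [hx.2]
    · simp [h0 hx]; norm_num
  · intro x hx
    simp [h1 hx]

end

end Vale.Agent.P136.Full
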