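import Mathlib
import Vale.Agent.P136.Full.Spec
import Vale.Agent.P136.Full.Extend

/-!
# P136: global uniqueness from the modules
-/

open MeasureTheory Set Metric
open scoped ContDiff Topology

namespace Vale.Agent.P136.Full

noncomputable section

/-- The four top statements imply uniqueness. -/
theorem uniqueness_of_stmts (hB : BoundaryStmt) (hO : OrthStmt) (hG : GaugeStmt) (hR : RigidityStmt) :
    Uniqueness := by
  intro Ω hΩ hconn l₁ m₁ l₂ m₂ hl₁ hm₁ hl₂ hm₂ hp₁ hp₂ hsame x hx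
  have hK : IsCompact (closure Ω) := hΩ.bounded.isCompact_closure
  obtain ⟨M₁, h₁⟩ := exists_moduli hK hl₁ hm₁ hp₁
  obtain ⟨M₂, h₂⟩ := exists_moduli hK hl₂ hm₂ hp₂
  have hs : SameMap Ω M₁.lam M₁.mu M₂.lam M₂.mu :=
    sameMap_congr hΩ.isOpen
      (fun y hy => ⟨(h₁ y (subset_closure hy)).1.symm, (h₁ y (subset_closure hy)).2.symm⟩)
      (fun y hy => ⟨(h₂ y (subset_closure hy)).1.symm, (h₂ y (subset_closure hy)).2.symm⟩) hsame
  have hF := hB Ω M₁ M₂ hΩ hs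
  obtain ⟨R, hRb⟩ := hK.isBounded.subset_ball (0 : Space)
  obtain ⟨G⟩ := hG Ω M₁ M₂ R hΩ.isOpen hRb (hO Ω M₁ M₂ R hΩ.isOpen hRb hF hs)
  obtain ⟨e1, e2⟩ := hR Ω M₁ M₂ hΩ hconn hF G x hx
  rw [(h₁ x hx).1, (h₂ x hx).1] at e1
  rw [(h₁ x hx).2, (h₂ x hx).2] at e2
  exact ⟨e1, e2⟩

end

end Vale.Agent.P136.Full
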