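import Mathlib
import Vale.Agent.P136.Full.Main
import Vale.Agent.P136.Full.Carleman
import Vale.Agent.P136.Full.Solve.Main
import Vale.Agent.P136.Full.Form.Sol
import Vale.Agent.P136.Full.Form.Split
import Vale.Agent.P136.Full.Boundary.Main
import Vale.Agent.P136.Full.Transport.Main
import Vale.Agent.P136.Full.Orth.Main
import Vale.Agent.P136.Full.Gauge.Main
import Vale.Agent.P136.Full.Rigidity.Main

/-!
# P136: global uniqueness of the Lamé moduli
-/

namespace Vale.Agent.P136.Full

/-- Global uniqueness of the Lamé moduli from the displacement-to-traction map. -/
theorem uniqueness : Uniqueness :=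
  uniqueness_of_stmts (boundary form (solve carleman) dispSol)
    (orth (solve carleman) Transport.transport_stmt form dispSol)
    (gauge Transport.transport_stmt) rigidity

end Vale.Agent.P136.Full
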